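import Vale.Agent.P236Z.Top.Geo
import Vale.Agent.P236Z.Mod.Defs
import Vale.Agent.P236Z.Tate.Defs
import Vale.Agent.P236Z.Force.Tate
import Vale.Agent.P236Z.Dt.HF
import Vale.Agent.P251.M.MUFinal

/-!
# P236: the model and the statements of the blocks
-/

open CategoryTheory MonoidalCategory Limits Pretriangulated
open Functor.LaxMonoidal Functor.OplaxMonoidal
open Vale.Agent.P251 Vale.Agent.P251.T Vale.Agent.P251.M Vale.Agent.P251.S Vale.Agent.P251.F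
  Vale.Agent.P251.I Vale.Agent.P251.X Vale.Agent.P236Z.Cat Vale.Agent.P236Z.Mod IsLocalRing

open scoped CategoryTheory.Obj

set_option linter.unusedSectionVars false

noncomputable section

namespace Vale.Agent.P236Z.Top

section T0

variable {T : Type 1} [Category.{0} T] [Preadditive T] [HasZeroObject T]
    [HasShift T ℤ] [∀ n : ℤ, (shiftFunctor T n).Additive] [Pretriangulated T] [IsTriangulated T]
    [MonoidalCategory T] [SymmetricCategory T] [TensorTriangulated T] [MonoidalClosed T]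
    [HasCoproducts.{0} T] [HasProducts.{0} T] [StableCat T] {D : MUData T} (P : EDat D)

/-- The homotopy ring of `E` is `R[u², u⁻²]` for a Lubin-Tate ring `R` (`ev` sends `u` to `1`),
and a point fixed by the group with values in a ring `B` like `ℤ[ζ₉] / 27`. -/
structure Alg where
  /-- the Lubin-Tate ring -/
  R : Type
  [ring : CommRing R]
  [loc : IsLocalRing R]
  base : Tate.Base R
  tf : ∀ r : R, 3 * r = 0 → r = 0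
  res : ∀ r : R, ∃ c : ℤ, r - c ∈ maximalIdeal R
  /-- the universal deformation -/
  F : Law R
  /-- the action of the generator -/
  γ : R ≃+* R
  /-- the isomorphism `F → γ F` -/
  f : InvSeries R
  lt : Tate.LT F γ f
  /-- `u ↦ 1` -/
  ev : HRing (stdEven T) P.E →+* R
  bij : ∀ w : ℤ, Even w → Function.Bijective
    fun a : (stdEven T).S w ⟶ P.E => ev (HRing.of _ P.E w a)
  zero : ∀ w : ℤ, Odd w → ∀ a : (stdEven T).S w ⟶ P.E, a = 0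
  odd : Odd0 P.E
  ev_ρ : ∀ (w : ℤ) (a : (stdEven T).S w ⟶ P.E),
    ev (HRing.of _ P.E w (a ≫ P.ρ)) = (Tate.twOf γ f).act (-w) (ev (HRing.of _ P.E w a))
  law : (lawOf P.uE).map ev = F
  ser : ∀ n, ev ((sIso D P.uE (P.uE ≫ P.ρ)).c n) = Tate.sc f (n + 1)
  ser3 : ∀ n, ev ((sIso D P.uE (P.uE ≫ P.ρ ≫ P.ρ ≫ P.ρ)).c n) = Tate.sc (Tate.ser3 γ f) (n + 1)
  /-- the values of the fixed point -/
  B : Type
  [ringB : CommRing B]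
  [locB : IsLocalRing B]
  h27 : (27 : B) = 0
  h9 : ∀ b : B, 9 * b = 0 → b ∈ maximalIdeal B
  /-- the fixed point -/
  lam : R →+* B
  [lam_loc : IsLocalHom lam]
  lam_γ : ∀ r, lam (γ r) = lam r
  lam_t : lam ((Tate.twOf γ f).t : R) ^ 9 = 1

attribute [instance] Alg.ring Alg.loc Alg.ringB Alg.locB Alg.lam_loc

/-- the homogeneous elements of degree `t` -/
def deg (E : T) (t : ℤ) : AddSubgroup (HRing (stdEven T) E) :=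
  if 4 ∣ t then (DirectSum.of ((stdEven T).Gr E) (t / 2)).range else ⊥

theorem map_cube (x : HRing (stdEven T) P.E) :
    HRing.map (P.ρ ≫ P.ρ ≫ P.ρ) x = HRing.map P.ρ (HRing.map P.ρ (HRing.map P.ρ x)) := by
  rw [HRing.map_comp, HRing.map_comp]
  rfl

theorem map_inv (g : P.E ⟶ P.E) [IsMonHom g] (g' : P.E ⟶ P.E) [IsMonHom g'] (h : g ≫ g' = 𝟙 _) :
    (HRing.map (E := stdEven T) g').comp (HRing.map g) = RingHom.id _ := by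
  rw [← HRing.map_comp, ← HRing.map_id]
  congr 1

/-- an automorphism of the homotopy ring -/
def aut (g : P.E ⟶ P.E) [IsMonHom g] (g' : P.E ⟶ P.E) [IsMonHom g'] (h : g ≫ g' = 𝟙 _)
    (h' : g' ≫ g = 𝟙 _) : HRing (stdEven T) P.E ≃+* HRing (stdEven T) P.E :=
  RingEquiv.ofRingHom (HRing.map g) (HRing.map g')
    (map_inv P g' g h') (map_inv P g g' h)

/-- the action of the generator of the group of order nine -/
def gA : HRing (stdEven T) P.E ≃+* HRing (stdEven T) P.E :=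
  aut P P.ρ ((P.ρ ≫ P.ρ) ≫ (P.ρ ≫ P.ρ ≫ P.ρ) ≫ (P.ρ ≫ P.ρ ≫ P.ρ))
    (by simpa only [Category.assoc] using P.ρ9) (by simpa only [Category.assoc] using P.ρ9)

/-- the action of the generator of the subgroup of order three -/
def hA : HRing (stdEven T) P.E ≃+* HRing (stdEven T) P.E :=
  aut P (P.ρ ≫ P.ρ ≫ P.ρ) ((P.ρ ≫ P.ρ ≫ P.ρ) ≫ (P.ρ ≫ P.ρ ≫ P.ρ))
    (by simpa only [Category.assoc] using P.ρ9) (by simpa only [Category.assoc] using P.ρ9)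

/-- the coefficient of `x ^ m` in `h x` -/
def sg (m : ℕ) : HRing (stdEven T) P.E := (sIso D P.uE (P.uE ≫ P.ρ ≫ P.ρ ≫ P.ρ)).c (m - 1)

/-- The Tate cohomology in the form used by the forcing argument. -/
def HasTate (A : Alg P) : Prop :=
  ∃ (O : Type) (_ : CommRing O) (red : HRing (stdEven T) P.E →+* O)
    (x : Fin 3 → HRing (stdEven T) P.E),
    Force.Tate (deg P.E) (hA P) (gA P) (sg P) red x ∧ IsUnit (A.ev (x 0)) ∧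
      IsUnit (A.ev (sg P 27)) ∧ ∀ a, IsUnit (red a) ↔ IsUnit (A.ev a)

end T0

/-- The model. -/
structure Mdl (W : Tower) where
  /-- the orientation of the plane -/
  e : W.F.S.obj CCF ≅ (stdEven W.T₀.C).L
  /-- the complex cobordism spectrum -/
  M : MUMon W.F (stdEven W.T₀.C) e
  /-- the basis of its homology -/
  b : MUBasis M.V
  /-- the spectrum `E` -/
  P : EDat (M.data b)
  /-- its homotopy ring -/
  A : Alg P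
  /-- the equivariant model -/
  Y : XDat W P.E P.ρ

namespace Mdl

variable {W : Tower} (m : Mdl W)

/-- the equivariant spectrum -/
abbrev X : W.T₂.C := m.Y.X

/-- its restriction to the subgroup of order three -/
abbrev X₁ : W.T₁.C := W.s₂.U.F.obj m.Y.X

/-- the unit of `X₁` -/
def one₁ : 𝟙_ W.T₁.C ⟶ m.X₁ := ε W.s₂.U.F ≫ W.s₂.U.F.map m.Y.one

/-- the pairing of `X₁` -/
def mul₁ : m.X₁ ⊗ m.X₁ ⟶ m.X₁ := μ W.s₂.U.F _ _ ≫ W.s₂.U.F.map m.Y.mul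

/-- the norm map from the trivial group to the subgroup of order three -/
def nm₁ : W.s₁.N.obj m.P.E ⟶ m.X₁ := in0 W.s₂ (W.s₁.N.obj m.P.E) ≫ W.s₂.U.F.map m.Y.ι

/-- units of `E` -/
def IsU₀ {A : W.T₀.C} (y : A ⟶ m.P.E) : Prop := IsIso (y ▷ m.P.E ≫ MonObj.mul)

/-- units of `X₁` -/
def IsU₁ {A : W.T₁.C} (y : A ⟶ m.X₁) : Prop := IsIso (y ▷ m.X₁ ≫ m.mul₁)

/-- units of `X` -/
def IsU₂ {A : W.T₂.C} (y : A ⟶ m.X) : Prop := IsIso (y ▷ m.X ≫ m.Y.mul)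

/-- the stage `L ^ k ⊗ X` -/
abbrev Z (k : ℕ) : W.T₂.C := Pw W.L k ⊗ m.X

/-- multiplication by `a ^ l` -/
def up (k : ℕ) : ∀ l : ℕ, m.Z k ⟶ m.Z (k + l)
  | 0 => 𝟙 _
  | l + 1 => up k l ≫ ((λ_ _).inv ≫ W.a ▷ Pw W.L (k + l)) ▷ m.X

/-- multiplication by `a ^ k` on `X` -/
def st (k : ℕ) : m.X ⟶ m.Z (0 + k) := (λ_ m.X).inv ≫ m.up 0 k

/-- the homotopy groups of the fixed points of the subgroup of order three -/
abbrev π (A : W.T₂.C) (t : ℤ) : Type := (𝟙_ W.T₁.C)⟦t⟧ ⟶ W.s₂.U.F.obj A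

/-- the class `a ^ 4 N x` -/
def cls (κ : (𝟙_ W.T₁.C)⟦(4 : ℤ)⟧ ≅ W.L₁.tv.F.obj (W.F.S.obj (CCF ⊗ CCF)))
    (x : W.F.S.obj (CCF ⊗ CCF) ⟶ m.P.E) : π m.X 4 :=
  κ.hom ≫ W.s₁.dg (CCF ⊗ CCF) ≫ W.s₁.N.map x ≫ m.nm₁

/-- the underlying class of a map out of the suspension of the orbit with three points -/
def flat1 {B : W.T₂.C} (ξ : W.s₂.O⟦(1 : ℤ)⟧ ⟶ B) : π B 1 :=
  (W.s₂.adj.unit.app _)⟦(1 : ℤ)⟧' ≫ (W.s₂.U.F.commShiftIso (1 : ℤ)).inv.app _ ≫ W.s₂.U.F.map ξ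

/-- The rows. -/
structure Rows : Prop where
  r1 : ∀ y : π m.X (-2), y = 0
  r2 : ∀ y : π m.X (-1), y + y ≫ W.s₂.γ _ + y ≫ W.s₂.γ _ ≫ W.s₂.γ _ = 0 →
    ∃ z, y = z ≫ W.s₂.γ _ - z
  r3 : (3 : ℤ) • (m.one₁ ≫ W.s₂.U.F.map (m.st 22)) = 0 ∧ ∀ y : 𝟙_ W.T₁.C ⟶ m.X₁, ∃ c : ℤ,
    y ≫ W.s₂.U.F.map (m.st 22) = c • (m.one₁ ≫ W.s₂.U.F.map (m.st 22)) ∧ (m.IsU₁ y → ¬ 3 ∣ c)
  r3b : ∀ y : 𝟙_ W.T₁.C ⟶ W.s₂.U.F.obj (m.Z (0 + 6)), ∃ c : ℤ,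
    y ≫ W.s₂.U.F.map (m.up (0 + 6) 16) =
      c • (m.one₁ ≫ W.s₂.U.F.map (m.st 6 ≫ m.up (0 + 6) 16))
  /-- the first homotopy group is generated by the class which detects `3` -/
  r4 : ∀ (C : W.T₂.C) (e₀ : W.s₂.O ⟶ C) (e₁ : C ⟶ W.s₂.O⟦(1 : ℤ)⟧) (p : C ⟶ 𝟙_ W.T₂.C),
    H.Dist (𝟙 _ - (W.L₂.t.h W.s₂.O).hom) e₀ e₁ → e₀ ≫ p = W.s₂.oe →
    ∃ ξ : W.s₂.O⟦(1 : ℤ)⟧ ⟶ m.Z (0 + 22), (3 : ℤ) • (p ≫ m.Y.one ≫ m.st 22) = e₁ ≫ ξ ∧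
      ∀ y : π (m.Z (0 + 22)) 1, ∃ c : ℤ, y = c • flat1 ξ
  r5 : ∀ y : π (m.Z (0 + 22)) 2, y = 0
  r6 : ∀ y : π (m.Z (0 + 22)) 3, y = 0
  r7 : ∀ κ x, m.IsU₀ x →
    m.cls κ x ≫ W.s₂.U.F.map (m.st 22 ≫ m.up _ 9) ≠ 0 ∧
    (3 : ℤ) • (m.cls κ x ≫ W.s₂.U.F.map (m.st 22 ≫ m.up _ 9)) = 0 ∧
    ∀ y : π (m.Z (0 + 22)) 4, (y ≫ W.s₂.γ _ - y) ≫ W.s₂.U.F.map (m.up _ 9) = 0 ∧
      ∃ c : ℤ, y ≫ W.s₂.U.F.map (m.up _ 9) =
        c • (m.cls κ x ≫ W.s₂.U.F.map (m.st 22 ≫ m.up _ 9))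
  r9 : ∀ n k : ℤ, n = 12 * k → k % 27 = 0 → ∃ y : π m.X n, m.IsU₁ y

/-- The output of the step from the subgroup to the whole group. -/
def QOut : Prop :=
  ∀ (M : ℕ) (A : W.T₂.C), 9 ∣ M →
    Nonempty (A ⊗ Pw W.s₂.Lr M ≅ (𝟙_ W.T₂.C)⟦2 * (M : ℤ) - 2⟧) → ∀ θ : A ⟶ m.X,
      ∃ y : W.s₂.Lr ⊗ A ⟶ m.X, (λ_ A).inv ≫ W.s₂.ar ▷ A ≫ y = θ ∧ ¬ m.IsU₂ y

/-- In the critical degree every class is divisible by the Euler class with a quotient which is not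
a unit. -/
def Div (w : ℤ) : Prop :=
  ∀ θ : W.L₂.tv.F.obj ((stdEven W.T₀.C).S w) ⟶ m.X,
    ∃ y : W.s₂.Lr ⊗ W.L₂.tv.F.obj ((stdEven W.T₀.C).S w) ⟶ m.X,
      (λ_ _).inv ≫ W.s₂.ar ▷ _ ≫ y = θ ∧ ¬ m.IsU₂ y

end Mdl

/-- (MOD, first half) -/
def StE : Prop := ∀ (W : Tower) (e : W.F.S.obj CCF ≅ (stdEven W.T₀.C).L)
  (M : MUMon W.F (stdEven W.T₀.C) e) (b : MUBasis M.V), ∃ P : EDat (M.data b), Nonempty (Alg P)

/-- (TT) from the output of the block TATE to the input of the block FORCE -/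
def StTT : Prop := Tate.TATE → ∀ (W : Tower) (m : Mdl W), HasTate m.P m.A

/-- (SS + NB) -/
def StRows : Prop := Force.FORCE → ∀ (W : Tower), W.Geo → ∀ m : Mdl W, HasTate m.P m.A → m.Rows

/-- (Q) -/
def StQ : Prop := ∀ (W : Tower), W.Geo → ∀ m : Mdl W, m.Rows → m.QOut

/-- (PER) -/
def StPer : Prop := ∀ (W : Tower), W.Geo → ∀ m : Mdl W, m.Rows → m.QOut →
  ∀ (j : ℕ) (w : ℤ), 4 ≤ j → w + 1 = Det.w0 j → m.Div w

/-- (DG) -/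
def StDG : Prop := ∀ (W : Tower), W.Geo → ∀ (m : Mdl W) (j : ℕ) (w : ℤ), 1 ≤ j →
  w + 1 = Det.w0 j → m.Div w → ∀ (H : W.T₀.C) [MonObj H] [IsCommMonObj H],
    Tr.IsHF 3 (MonObj.one : 𝟙_ W.T₀.C ⟶ H) → ∀ θ : (stdEven W.T₀.C).S w ⟶ 𝟙_ W.T₀.C,
      Tr.AF (MonObj.one : 𝟙_ W.T₀.C ⟶ H) 3 θ

end Vale.Agent.P236Z.Top
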