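import Vale.Agent.P236Z.Top.Mdl

/-!
# P236: units of the model
-/

open CategoryTheory MonoidalCategory Limits Pretriangulated
open Functor.LaxMonoidal Functor.OplaxMonoidal
open Vale.Agent.P251 Vale.Agent.P251.T Vale.Agent.P251.M Vale.Agent.P251.S Vale.Agent.P251.F
  Vale.Agent.P251.I Vale.Agent.P251.X Vale.Agent.P236Z.Cat Vale.Agent.P236Z.Mod IsLocalRing
open scoped CategoryTheory.Obj

set_option linter.unusedSectionVars false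

noncomputable section

namespace Vale.Agent.P236Z.Top

/-- an exact conservative functor reflects isomorphisms -/
theorem isIso_of_cons {T T' : TTC} (U : ExF T' T) (h : ∀ X, IsZero (U.F.obj X) → IsZero X)
    {A B : T'.C} (f : A ⟶ B) [IsIso (U.F.map f)] : IsIso f := by
  obtain ⟨C, g, d, hD⟩ := distinguished_cocone_triangle f
  refine (Triangle.isZero₃_iff_isIso₁ _ hD).1 (h _ ?_)
  exact (Triangle.isZero₃_iff_isIso₁ _ (U.F.map_distinguished _ hD)).2 ‹_›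

section Mon

variable {C : Type 1} [Category.{0} C] [MonoidalCategory C] {E : C}

theorem isIso_pre_iff (μ₀ : E ⊗ E ⟶ E) {A A' : C} (κ : A' ⟶ A) [IsIso κ] (y : A ⟶ E) :
    IsIso ((κ ≫ y) ▷ E ≫ μ₀) ↔ IsIso (y ▷ E ≫ μ₀) := by
  rw [comp_whiskerRight, Category.assoc]
  exact isIso_comp_left_iff _ _

variable [MonObj E]

theorem mulBy_mul {A B : C} (y : A ⟶ E) (z : B ⟶ E) :
    ((y ⊗ₘ z) ≫ MonObj.mul) ▷ E ≫ MonObj.mul =
      (α_ A B E).hom ≫ A ◁ (z ▷ E ≫ MonObj.mul) ≫ (y ▷ E ≫ MonObj.mul) := by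
  rw [comp_whiskerRight, Category.assoc, MonObj.mul_assoc, tensorHom_def', comp_whiskerRight,
    Category.assoc, associator_naturality_left_assoc, associator_naturality_middle_assoc,
    MonoidalCategory.whiskerLeft_comp, Category.assoc, ← whisker_exchange_assoc]

theorem mulBy_one : IsIso ((MonObj.one : 𝟙_ C ⟶ E) ▷ E ≫ MonObj.mul) := by
  rw [MonObj.one_mul]
  infer_instance

theorem mulBy_aut {A : C} (y : A ⟶ E) (g : E ⟶ E) [IsMonHom g] [IsIso g]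
    (h : IsIso (y ▷ E ≫ MonObj.mul)) : IsIso ((y ≫ g) ▷ E ≫ MonObj.mul) := by
  have e : (y ≫ g) ▷ E ≫ MonObj.mul = A ◁ inv g ≫ (y ▷ E ≫ MonObj.mul) ≫ g := by
    rw [Category.assoc, IsMonHom.mul_hom, MonoidalCategory.tensorHom_def, whisker_exchange_assoc,
      Category.assoc, whisker_exchange_assoc, ← MonoidalCategory.whiskerLeft_comp_assoc,
      IsIso.inv_hom_id, whiskerLeft_id, Category.id_comp, comp_whiskerRight, Category.assoc]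
  rw [e]
  infer_instance

theorem mulBy_of_mul [SymmetricCategory C] {A B : C} [IsInv A] (y : A ⟶ E) (z : B ⟶ E)
    (hy : IsIso (y ▷ E ≫ MonObj.mul))
    (h : IsIso (((y ⊗ₘ z) ≫ MonObj.mul) ▷ E ≫ MonObj.mul)) : IsIso (z ▷ E ≫ MonObj.mul) := by
  rw [mulBy_mul, isIso_comp_left_iff, isIso_comp_right_iff] at h
  have : IsIso ((tensorLeft A).map (z ▷ E ≫ MonObj.mul)) := h
  exact isIso_of_reflects_iso _ (tensorLeft A)

end Mon

namespace Mdl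

variable {W : Tower} (m : Mdl W)

theorem isU₀_iso {A A' : W.T₀.C} (κ : A' ⟶ A) [IsIso κ] (y : A ⟶ m.P.E) :
    m.IsU₀ (κ ≫ y) ↔ m.IsU₀ y := isIso_pre_iff _ κ y

theorem isU₁_iso {A A' : W.T₁.C} (κ : A' ⟶ A) [IsIso κ] (y : A ⟶ m.X₁) :
    m.IsU₁ (κ ≫ y) ↔ m.IsU₁ y := isIso_pre_iff _ κ y

theorem isU₂_iso {A A' : W.T₂.C} (κ : A' ⟶ A) [IsIso κ] (y : A ⟶ m.X) :
    m.IsU₂ (κ ≫ y) ↔ m.IsU₂ y := isIso_pre_iff _ κ y

theorem isU₂_iff {A : W.T₂.C} (y : A ⟶ m.X) : m.IsU₂ y ↔ m.IsU₁ (W.s₂.U.F.map y) := by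
  have e : W.s₂.U.F.map (y ▷ m.X ≫ m.Y.mul) =
      δ W.s₂.U.F _ _ ≫ W.s₂.U.F.map y ▷ m.X₁ ≫ m.mul₁ := by
    rw [Functor.map_comp, Functor.Monoidal.map_whiskerRight, mul₁, Category.assoc, Category.assoc]
  constructor
  · intro h
    have : IsIso (y ▷ m.X ≫ m.Y.mul) := h
    have h2 : IsIso (W.s₂.U.F.map (y ▷ m.X ≫ m.Y.mul)) := inferInstance
    rwa [e, isIso_comp_left_iff] at h2
  · intro h
    have : IsIso (W.s₂.U.F.map (y ▷ m.X ≫ m.Y.mul)) := by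
      rwa [e, isIso_comp_left_iff]
    exact isIso_of_cons W.s₂.U W.s₂.cons _

theorem e_mul₁ : μ W.s₁.U.F _ _ ≫ W.s₁.U.F.map m.mul₁ ≫ m.Y.e.hom =
    (m.Y.e.hom ⊗ₘ m.Y.e.hom) ≫ MonObj.mul := m.Y.e_mul

theorem isU₁_iff {A : W.T₁.C} (y : A ⟶ m.X₁) :
    m.IsU₁ y ↔ m.IsU₀ (W.s₁.U.F.map y ≫ m.Y.e.hom) := by
  have e : W.s₁.U.F.map (y ▷ m.X₁ ≫ m.mul₁) ≫ m.Y.e.hom = δ W.s₁.U.F _ _ ≫ _ ◁ m.Y.e.hom ≫
      ((W.s₁.U.F.map y ≫ m.Y.e.hom) ▷ m.P.E ≫ MonObj.mul) := by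
    rw [Functor.map_comp, Functor.Monoidal.map_whiskerRight, Category.assoc, Category.assoc,
      Category.assoc, e_mul₁, MonoidalCategory.tensorHom_def, comp_whiskerRight, Category.assoc, Category.assoc,
      whisker_exchange_assoc, whisker_exchange_assoc]
  constructor
  · intro h
    have : IsIso (y ▷ m.X₁ ≫ m.mul₁) := h
    have h2 : IsIso (W.s₁.U.F.map (y ▷ m.X₁ ≫ m.mul₁) ≫ m.Y.e.hom) := inferInstance
    rwa [e, isIso_comp_left_iff, isIso_comp_left_iff] at h2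
  · intro h
    have : IsIso (W.s₁.U.F.map (y ▷ m.X₁ ≫ m.mul₁)) := by
      rw [← isIso_comp_right_iff _ m.Y.e.hom]
      rwa [e, isIso_comp_left_iff, isIso_comp_left_iff]
    exact isIso_of_cons W.s₁.U W.s₁.cons _

/-- the underlying class -/
def u₀ {A : W.T₂.C} (y : A ⟶ m.X) : W.s₁.U.F.obj (W.s₂.U.F.obj A) ⟶ m.P.E :=
  W.s₁.U.F.map (W.s₂.U.F.map y) ≫ m.Y.e.hom

theorem isU₂_iff₀ {A : W.T₂.C} (y : A ⟶ m.X) : m.IsU₂ y ↔ m.IsU₀ (m.u₀ y) :=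
  (m.isU₂_iff y).trans (m.isU₁_iff _)

theorem u₁_mul {A B : W.T₁.C} (y : A ⟶ m.X₁) (z : B ⟶ m.X₁) :
    W.s₁.U.F.map ((y ⊗ₘ z) ≫ m.mul₁) ≫ m.Y.e.hom = δ W.s₁.U.F A B ≫
      ((W.s₁.U.F.map y ≫ m.Y.e.hom) ⊗ₘ (W.s₁.U.F.map z ≫ m.Y.e.hom)) ≫ MonObj.mul := by
  rw [Functor.map_comp, Functor.Monoidal.map_tensor, Category.assoc, Category.assoc,
    Category.assoc, e_mul₁, tensorHom_comp_tensorHom_assoc]

theorem u₀_mul {A B : W.T₂.C} (y : A ⟶ m.X) (z : B ⟶ m.X) :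
    m.u₀ ((y ⊗ₘ z) ≫ m.Y.mul) = W.s₁.U.F.map (δ W.s₂.U.F A B) ≫ δ W.s₁.U.F _ _ ≫
      (m.u₀ y ⊗ₘ m.u₀ z) ≫ MonObj.mul := by
  rw [u₀, u₀, u₀, ← u₁_mul, ← Functor.map_comp_assoc, Functor.map_comp (W.s₂.U.F),
    Functor.Monoidal.map_tensor, mul₁, Category.assoc, Category.assoc]

theorem IsU₀.mul {A B : W.T₀.C} {y : A ⟶ m.P.E} {z : B ⟶ m.P.E} (hy : m.IsU₀ y)
    (hz : m.IsU₀ z) : m.IsU₀ ((y ⊗ₘ z) ≫ MonObj.mul) := by
  have : IsIso (y ▷ m.P.E ≫ MonObj.mul) := hy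
  have : IsIso (z ▷ m.P.E ≫ MonObj.mul) := hz
  rw [IsU₀, mulBy_mul]
  infer_instance

instance : IsIso m.P.ρ :=
  ⟨(m.P.ρ ≫ m.P.ρ) ≫ (m.P.ρ ≫ m.P.ρ ≫ m.P.ρ) ≫ (m.P.ρ ≫ m.P.ρ ≫ m.P.ρ),
    by simpa only [Category.assoc] using m.P.ρ9, by simpa only [Category.assoc] using m.P.ρ9⟩

theorem IsU₀.aut {A : W.T₀.C} {y : A ⟶ m.P.E} (hy : m.IsU₀ y) : m.IsU₀ (y ≫ m.P.ρ) :=
  mulBy_aut y _ hy

theorem isUnit_of_isU₀ {w : ℤ} {a : (stdEven W.T₀.C).S w ⟶ m.P.E} (h : m.IsU₀ a) :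
    IsUnit (HRing.of _ m.P.E w a) := by
  have : IsIso (a ▷ m.P.E ≫ MonObj.mul) := h
  obtain ⟨b, hb⟩ := whiskerLeft_surj ((stdEven W.T₀.C).S w) (X := (stdEven W.T₀.C).S (-w))
    (((stdEven W.T₀.C).mu w (-w) 0 (add_neg_cancel w)).hom ≫ (stdEven W.T₀.C).zero.inv ≫
      MonObj.one ≫ inv (a ▷ m.P.E ≫ MonObj.mul))
  refine IsUnit.of_mul_eq_one (HRing.of _ m.P.E (-w) b) ?_
  rw [of_mul_of (add_neg_cancel w), ← of_one, EvenSpheres.gmul, EvenSpheres.ext, tensorHom_def',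
    hb]
  simp only [Category.assoc, IsIso.inv_hom_id, Category.comp_id, Iso.inv_hom_id_assoc]

theorem isU₀_of_isUnit {w : ℤ} {a : (stdEven W.T₀.C).S w ⟶ m.P.E}
    (h : IsUnit (m.A.ev (HRing.of _ m.P.E w a))) : m.IsU₀ a := by
  rcases Int.even_or_odd w with hw | hw
  · obtain ⟨r, hr⟩ := h.exists_right_inv
    obtain ⟨b, hb⟩ := (m.A.bij (-w) hw.neg).2 r
    have key : ∀ {v v' : ℤ} (hv : v + v' = 0) (a : (stdEven W.T₀.C).S v ⟶ m.P.E)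
        (b : (stdEven W.T₀.C).S v' ⟶ m.P.E),
        m.A.ev (HRing.of _ m.P.E v a) * m.A.ev (HRing.of _ m.P.E v' b) = 1 →
        IsIso ((stdEven W.T₀.C).S v ◁ (b ▷ m.P.E ≫ MonObj.mul) ≫ (a ▷ m.P.E ≫ MonObj.mul)) := by
      intro v v' hv a b hab
      have h1 : EvenSpheres.gmul hv a b = (stdEven W.T₀.C).zero.inv ≫ MonObj.one := by
        apply (m.A.bij 0 Even.zero).1
        dsimp only
        rw [← of_mul_of, map_mul, hab, of_one, map_one]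
      rw [EvenSpheres.gmul, EvenSpheres.ext, Category.assoc, Iso.inv_comp_eq] at h1
      rw [← isIso_comp_left_iff (α_ _ _ _).hom, ← mulBy_mul, h1, isIso_pre_iff, isIso_pre_iff]
      exact mulBy_one
    have hb' : m.A.ev (HRing.of _ m.P.E (-w) b) = r := hb
    have h1 := key (add_neg_cancel w) a b (by rw [hb', hr])
    have h2 := key (neg_add_cancel w) b a (by rw [hb', mul_comm, hr])
    have h3 : IsSplitEpi (a ▷ m.P.E ≫ MonObj.mul) :=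
      ⟨⟨inv ((stdEven W.T₀.C).S w ◁ (b ▷ m.P.E ≫ MonObj.mul) ≫ (a ▷ m.P.E ≫ MonObj.mul)) ≫ _,
        by rw [Category.assoc, IsIso.inv_hom_id]⟩⟩
    have h4 : Mono ((tensorLeft ((stdEven W.T₀.C).S (-w))).map (a ▷ m.P.E ≫ MonObj.mul)) :=
      mono_of_mono ((stdEven W.T₀.C).S (-w) ◁ (a ▷ m.P.E ≫ MonObj.mul))
        (b ▷ m.P.E ≫ MonObj.mul)
    have h5 := (tensorLeft ((stdEven W.T₀.C).S (-w))).mono_of_mono_map h4
    exact isIso_of_mono_of_isSplitEpi _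
  · rw [m.A.zero w hw a, HRing.of, map_zero, map_zero] at h
    exact absurd h not_isUnit_zero

theorem isU₀_iff {w : ℤ} (a : (stdEven W.T₀.C).S w ⟶ m.P.E) :
    m.IsU₀ a ↔ IsUnit (m.A.ev (HRing.of _ m.P.E w a)) :=
  ⟨fun h => (m.isUnit_of_isU₀ h).map _, m.isU₀_of_isUnit⟩

/-- multiplication by `a` -/
def up1 (k : ℕ) : m.Z k ⟶ m.Z (k + 1) := ((λ_ _).inv ≫ W.a ▷ Pw W.L k) ▷ m.X

theorem up_succ (k l : ℕ) : m.up k (l + 1) = m.up k l ≫ m.up1 (k + l) := rfl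

theorem up_cast {k k' : ℕ} (h : k = k') :
    m.up1 k ≫ eqToHom (congrArg m.Z (congrArg (· + 1) h)) =
      eqToHom (congrArg m.Z h) ≫ m.up1 k' := by
  subst h
  exact (Category.comp_id _).trans (Category.id_comp _).symm

theorem up_up (k l : ℕ) : ∀ l' : ℕ, m.up k l ≫ m.up (k + l) l' =
    m.up k (l + l') ≫ eqToHom (congrArg m.Z (Nat.add_assoc k l l').symm)
  | 0 => rfl
  | l' + 1 => by
    refine (Category.assoc _ _ (m.up1 (k + l + l'))).symm.trans ?_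
    rw [up_up k l l', Category.assoc, ← m.up_cast (Nat.add_assoc k l l').symm]
    exact (Category.assoc _ _ _).symm

theorem st_up_22 : m.st 6 ≫ m.up (0 + 6) 16 = m.st 22 :=
  (Category.assoc _ _ _).trans
    (congrArg ((λ_ m.X).inv ≫ ·) ((m.up_up 0 6 16).trans (Category.comp_id _)))

end Mdl

end Vale.Agent.P236Z.Top
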