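import Vale.Agent.P236Z.Top.Unit
import Mathlib.CategoryTheory.Monoidal.Skeleton

/-!
# P236: the periodicity step
-/

open CategoryTheory MonoidalCategory Limits Pretriangulated
open Functor.LaxMonoidal Functor.OplaxMonoidal
open Vale.Agent.P251 Vale.Agent.P251.T Vale.Agent.P251.M Vale.Agent.P251.S Vale.Agent.P251.F
  Vale.Agent.P251.I Vale.Agent.P251.X Vale.Agent.P236Z.Cat Vale.Agent.P236Z.Mod IsLocalRing
open scoped CategoryTheory.Obj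

set_option linter.unusedSectionVars false

noncomputable section

namespace Vale.Agent.P236Z.Top

/-- the class of a sphere -/
def sk (T : TTC) (n : ℤ) : Skeleton T.C := toSkeleton ((𝟙_ T.C)⟦n⟧)

theorem sk_add (T : TTC) (a b : ℤ) : sk T a * sk T b = sk T (b + a) := by
  rw [sk, sk, ← Skeleton.toSkeleton_tensorObj]
  exact congr_toSkeleton_of_iso (sphTensor a _ ≪≫ ((shiftFunctorAdd T.C b a).app _).symm)

theorem sk_zero (T : TTC) : sk T 0 = 1 :=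
  congr_toSkeleton_of_iso ((shiftFunctorZero T.C ℤ).app _)

theorem sk_pow (T : TTC) : ∀ n : ℕ, sk T 1 ^ n = sk T n
  | 0 => (pow_zero _).trans (sk_zero T).symm
  | n + 1 => by rw [pow_succ', sk_pow T n, sk_add, Nat.cast_succ]

theorem sk_Pw {C : Type 1} [Category.{0} C] [MonoidalCategory C] (L : C) :
    ∀ n : ℕ, toSkeleton (Pw L n) = toSkeleton L ^ n
  | 0 => (pow_zero _).symm
  | n + 1 => by rw [Pw_succ, Skeleton.toSkeleton_tensorObj, sk_Pw L n, pow_succ']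

theorem sk_map {C D : Type 1} [Category.{0} C] [MonoidalCategory C] [Category.{0} D]
    [MonoidalCategory D] (F : C ⥤ D) [F.Monoidal] (X : C) :
    Skeleton.monoidHom F (toSkeleton X) = toSkeleton (F.obj X) :=
  Functor.mapSkeleton_obj_toSkeleton F X

theorem sk_exF {T T' : TTC} (U : ExF T T') (n : ℤ) :
    toSkeleton (U.F.obj ((𝟙_ T.C)⟦n⟧)) = sk T' n :=
  congr_toSkeleton_of_iso ((U.F.commShiftIso n).app _ ≪≫
    (shiftFunctor T'.C n).mapIso (Functor.Monoidal.εIso U.F).symm)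

theorem isInv_map {C D : Type 1} [Category.{0} C] [MonoidalCategory C] [Category.{0} D]
    [MonoidalCategory D] [SymmetricCategory D] (F : C ⥤ D) [F.Monoidal] {A B : C}
    (j : A ⊗ B ≅ 𝟙_ C) : IsInv (F.obj A) :=
  IsInv.of_inverse (Functor.Monoidal.μIso F A B ≪≫ F.mapIso j ≪≫ (Functor.Monoidal.εIso F).symm)

section Swap

variable {C : Type 1} [Category.{0} C] [MonoidalCategory C] [SymmetricCategory C]

/-- the exchange of the first two factors -/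
def swp (L B A : C) : L ⊗ B ⊗ A ≅ B ⊗ L ⊗ A :=
  (α_ L B A).symm ≪≫ whiskerRightIso (β_ L B) A ≪≫ α_ B L A

theorem swp_a {L : C} (a : 𝟙_ C ⟶ L) (B A : C) :
    (λ_ _).inv ≫ a ▷ (B ⊗ A) ≫ (swp L B A).hom = B ◁ ((λ_ A).inv ≫ a ▷ A) := by
  simp only [swp, Iso.trans_hom, Iso.symm_hom, whiskerRightIso_hom, whiskerRight_tensor,
    Category.assoc, Iso.hom_inv_id_assoc, MonoidalCategory.whiskerLeft_comp]
  rw [← comp_whiskerRight_assoc, BraidedCategory.braiding_naturality_left, comp_whiskerRight_assoc,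
    associator_naturality_middle, braiding_tensorUnit_left]
  monoidal

end Swap

namespace Mdl

variable {W : Tower} (m : Mdl W)

theorem sk_N (g : W.Geo) (n : ℕ) : toSkeleton (W.s₂.N.obj ((𝟙_ W.T₁.C)⟦(n : ℤ)⟧)) =
    sk W.T₂ n * toSkeleton W.s₂.Lr ^ n := by
  obtain ⟨ω, -⟩ := g.n2
  have h1 : toSkeleton (W.L₁.tv.F.obj (W.F.S.obj RRF)) = sk W.T₁ 1 :=
    (congr_toSkeleton_of_iso (W.L₁.tv.F.mapIso W.F.line)).trans (sk_exF _ 1)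
  have h2 : toSkeleton (W.L₂.tv.F.obj (W.F.S.obj RRF)) = sk W.T₂ 1 :=
    (congr_toSkeleton_of_iso (W.L₂.tv.F.mapIso W.F.line)).trans (sk_exF _ 1)
  have h3 := congr_toSkeleton_of_iso ω
  rw [← sk_map, h1, Skeleton.toSkeleton_tensorObj, h2] at h3
  rw [← sk_map]
  change Skeleton.monoidHom W.s₂.N (sk W.T₁ n) = _
  rw [← sk_pow, map_pow, h3, mul_pow, sk_pow]

theorem isU₂_norm {B : W.T₁.C} {v : B ⟶ m.X₁} (hv : m.IsU₁ v) :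
    m.IsU₂ (W.s₂.N.map v ≫ m.Y.nm₂) := by
  rw [isU₁_iff] at hv
  have hν : W.s₂.U.F.map (W.s₂.N.map v) ≫ W.s₂.ν.hom.app _ =
      W.s₂.ν.hom.app B ≫ (v ⊗ₘ v ⊗ₘ v) := W.s₂.ν.hom.naturality v
  have e : m.u₀ (W.s₂.N.map v ≫ m.Y.nm₂) = W.s₁.U.F.map (W.s₂.ν.hom.app B) ≫ δ W.s₁.U.F _ _ ≫
      _ ◁ δ W.s₁.U.F _ _ ≫ (((W.s₁.U.F.map v ≫ m.Y.e.hom) ⊗ₘ
        ((((W.s₁.U.F.map v ≫ m.Y.e.hom) ≫ m.P.ρ) ⊗ₘ
          (((W.s₁.U.F.map v ≫ m.Y.e.hom) ≫ m.P.ρ) ≫ m.P.ρ)) ≫ MonObj.mul)) ≫ MonObj.mul) := by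
    rw [u₀, Functor.map_comp, Functor.map_comp, Category.assoc, m.Y.nm₂_res,
      ← Functor.map_comp_assoc, hν, Functor.map_comp, Category.assoc, ← δ_natural_assoc,
      ← id_tensorHom, ← id_tensorHom, tensorHom_comp_tensorHom_assoc, ← δ_natural, Step.mul3,
      ← id_tensorHom]
    simp only [tensorHom_comp_tensorHom_assoc, Category.assoc,
      Category.comp_id, Category.id_comp]
  rw [isU₂_iff₀, e, isU₀_iso, isU₀_iso, isU₀_iso]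
  exact hv.mul m (hv.aut.mul m hv.aut.aut)

theorem IsU₂.of_mul {A B B' : W.T₂.C} (j : B ⊗ B' ≅ 𝟙_ _) {d : B ⟶ m.X} {y : A ⟶ m.X}
    (hd : m.IsU₂ d) (h : m.IsU₂ ((d ⊗ₘ y) ≫ m.Y.mul)) : m.IsU₂ y := by
  rw [isU₂_iff₀, u₀_mul, isU₀_iso, isU₀_iso] at h
  rw [isU₂_iff₀] at hd ⊢
  have := isInv_map (W.s₂.U.F ⋙ W.s₁.U.F) j
  exact mulBy_of_mul (A := (W.s₂.U.F ⋙ W.s₁.U.F).obj B) _ _ hd h

/-- multiplication by a unit transports the divisibility -/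
theorem div_of_unit {B B' S : W.T₂.C} (j : B ⊗ B' ≅ 𝟙_ _) {d : B ⟶ m.X} (hd : m.IsU₂ d)
    (h : ∀ θ : B' ⊗ S ⟶ m.X, ∃ y : W.s₂.Lr ⊗ B' ⊗ S ⟶ m.X,
      (λ_ _).inv ≫ W.s₂.ar ▷ _ ≫ y = θ ∧ ¬ m.IsU₂ y) (θ : S ⟶ m.X) :
    ∃ y : W.s₂.Lr ⊗ S ⟶ m.X, (λ_ _).inv ≫ W.s₂.ar ▷ _ ≫ y = θ ∧ ¬ m.IsU₂ y := by
  have := IsInv.of_inverse j
  have hφ : IsIso (d ▷ m.X ≫ m.Y.mul) := hd
  let κ : B ⊗ B' ⊗ S ≅ S := (α_ _ _ _).symm ≪≫ whiskerRightIso j S ≪≫ λ_ S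
  obtain ⟨θ', hθ⟩ := whiskerLeft_surj B (κ.hom ≫ θ ≫ inv (d ▷ m.X ≫ m.Y.mul))
  obtain ⟨y, hy, hu⟩ := h θ'
  refine ⟨(W.s₂.Lr ◁ κ.inv ≫ (swp _ _ _).hom) ≫ (d ⊗ₘ y) ≫ m.Y.mul, ?_, fun h' => hu ?_⟩
  · rw [Category.assoc, ← whisker_exchange_assoc, ← leftUnitor_inv_naturality_assoc,
      reassoc_of% swp_a, tensorHom_def', Category.assoc,
      ← MonoidalCategory.whiskerLeft_comp_assoc, Category.assoc, hy, hθ]
    simp only [Category.assoc, IsIso.inv_hom_id, Category.comp_id, Iso.inv_hom_id_assoc]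
  · rw [isU₂_iso] at h'
    exact hd.of_mul m j h'

end Mdl

/-- (PER) -/
theorem stPer : StPer := by
  intro W g m r q j w hj hw
  obtain ⟨i, rfl⟩ : ∃ i, j = i + 4 := ⟨j - 4, by omega⟩
  obtain ⟨M, hM⟩ : ∃ M : ℕ, M = 324 * 3 ^ i := ⟨_, rfl⟩
  have hM' : (M : ℤ) = 324 * 3 ^ i := by rw [hM]; push_cast; rfl
  obtain ⟨v, hv⟩ := r.r9 M (27 * 3 ^ i) (by rw [hM']; ring) (Int.mul_emod_right _ _)
  have j₁ : (𝟙_ W.T₁.C)⟦(M : ℤ)⟧ ⊗ (𝟙_ W.T₁.C)⟦(-M : ℤ)⟧ ≅ 𝟙_ _ :=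
    Skeleton.isoOfEq ((Skeleton.toSkeleton_tensorObj _ _).trans
      ((sk_add _ _ _).trans (by rw [neg_add_cancel, sk_zero]; rfl)))
  have j₂ := Functor.Monoidal.μIso W.s₂.N _ _ ≪≫ W.s₂.N.mapIso j₁ ≪≫
    (Functor.Monoidal.εIso W.s₂.N).symm
  refine m.div_of_unit j₂ (m.isU₂_norm hv) (q M _ ⟨36 * 3 ^ i, by rw [hM]; ring⟩ ?_)
  obtain ⟨e⟩ := stdEven_sph (T := W.T₀.C) w
  have h1 := congr_toSkeleton_of_iso j₂
  have h2 : toSkeleton (W.L₂.tv.F.obj ((stdEven W.T₀.C).S w)) = sk W.T₂ (2 * w) :=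
    (congr_toSkeleton_of_iso (W.L₂.tv.F.mapIso e)).trans (sk_exF _ _)
  have h3 : 2 * w = (2 * (M : ℤ) - 2) + M := by
    rw [Det.w0] at hw
    rw [hM', eq_sub_of_add_eq hw]
    ring
  rw [Skeleton.toSkeleton_tensorObj, Mdl.sk_N g, ← Skeleton.one_eq] at h1
  rw [← toSkeleton_eq_toSkeleton_iff, Skeleton.toSkeleton_tensorObj,
    Skeleton.toSkeleton_tensorObj, sk_Pw, h2, h3, ← sk_add]
  calc _ = (sk W.T₂ M * toSkeleton W.s₂.Lr ^ M *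
        toSkeleton (W.s₂.N.obj ((𝟙_ W.T₁.C)⟦(-M : ℤ)⟧))) * sk W.T₂ (2 * (M : ℤ) - 2) := by ac_rfl
    _ = _ := by rw [h1, one_mul]; rfl

end Vale.Agent.P236Z.Top
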