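import Vale.Agent.P236Z.Top.DG2
import Vale.Agent.P236Z.Det.All

/-!
# P236, detection in the tower
-/

open CategoryTheory MonoidalCategory Limits Pretriangulated
open Functor.LaxMonoidal Functor.OplaxMonoidal
open Vale.Agent.P251 Vale.Agent.P251.T Vale.Agent.P251.M Vale.Agent.P251.S Vale.Agent.P251.F
  Vale.Agent.P251.I Vale.Agent.P251.X Vale.Agent.P251.H Vale.Agent.P236Z.Cat Vale.Agent.P236Z.Mod
  Vale.Agent.P236Z.Dt IsLocalRing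

set_option linter.unusedSectionVars false

noncomputable section

namespace Vale.Agent.P236Z.Top

namespace DG

/-- the composition of exact functors -/
abbrev cmp {T T' T'' : TTC} (F : ExF T T') (G : ExF T' T'') : ExF T T'' :=
  { F := F.F ⋙ G.F
    e_eq := fun X => by
      have h1 := congrArg G.F.map (F.e_eq X)
      have h2 := G.F.commShiftIso_hom_naturality (η F.F) (1 : ℤ)
      simp only [Functor.map_comp] at h1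
      rw [Functor.commShiftIso_comp_hom_app, Functor.commShiftIso_comp_hom_app]
      change (μ G.F _ _ ≫ G.F.map (μ F.F _ _)) ≫ G.F.map (F.F.map _) ≫ _ =
        G.F.obj (F.F.obj X) ◁ (_ ≫ (G.F.map (η F.F) ≫ η G.F)⟦(1 : ℤ)⟧') ≫ _
      rw [Category.assoc, reassoc_of% h1, ← μ_natural_right_assoc, G.e_eq, Functor.map_comp,
        Functor.map_comp, Category.assoc, ← reassoc_of% h2,
        ← MonoidalCategory.whiskerLeft_comp_assoc, Category.assoc]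
      rfl }

variable (W : Tower)

/-- the underlying object -/
def UU : ExF W.T₂ W.T₀ := cmp W.s₂.U W.s₁.U

/-- the trivial action -/
abbrev tv : W.T₀.C ⥤ W.T₂.C := W.L₂.tv.F

/-- the underlying object of an object with trivial action -/
def τ (Y : W.T₀.C) : (UU W).F.obj ((tv W).obj Y) ≅ Y :=
  W.s₁.U.F.mapIso (W.s₂.tvU.app Y) ≪≫ W.s₁.tvU.app Y

@[reassoc]
theorem τ_nat {X Y : W.T₀.C} (f : X ⟶ Y) :
    (UU W).F.map ((tv W).map f) ≫ (τ W Y).hom = (τ W X).hom ≫ f := by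
  have h1 := congrArg W.s₁.U.F.map (W.s₂.tvU.hom.naturality f)
  rw [Functor.map_comp, Functor.map_comp] at h1
  exact (Category.assoc _ _ _).symm.trans ((congrArg (· ≫ _) h1).trans ((Category.assoc _ _ _).trans
    ((congrArg (_ ≫ ·) (W.s₁.tvU.hom.naturality f)).trans (Category.assoc _ _ _).symm)))

@[reassoc]
theorem τ_one : ε (UU W).F ≫ (UU W).F.map (ε (tv W)) ≫ (τ W _).hom = 𝟙 _ := by
  have h1 : (ε W.s₂.U.F ≫ W.s₂.U.F.map (ε (tv W))) ≫ W.s₂.tvU.hom.app _ = ε W.L₁.tv.F :=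
    NatTrans.IsMonoidal.unit (τ := W.s₂.tvU.hom)
  have h2 : (ε W.s₁.U.F ≫ W.s₁.U.F.map (ε W.L₁.tv.F)) ≫ W.s₁.tvU.hom.app _ = 𝟙 _ :=
    NatTrans.IsMonoidal.unit (τ := W.s₁.tvU.hom)
  rw [← h2, ← h1]
  simp only [Functor.map_comp, Category.assoc]
  exact Category.assoc _ _ _

/-- the base point of the free orbit -/
def pt : 𝟙_ W.T₀.C ⟶ (UU W).F.obj W.G := W.s₁.pun _ ≫ W.s₁.U.F.map (W.s₂.pun _)

theorem pun_gq : (W.s₁.pun _ ≫ W.s₁.U.F.map (W.s₂.pun _)) ≫ W.s₁.U.F.map (W.s₂.U.F.map W.gq) =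
    ε W.s₁.U.F ≫ W.s₁.U.F.map (W.s₂.pun _) := by
  rw [Category.assoc, ← Functor.map_comp, Tower.gq, W.s₂.pun_ind, Functor.map_comp, ← pun_oe,
    Category.assoc]

theorem pt_oe : pt W ≫ (UU W).F.map (W.gq ≫ W.s₂.oe) = ε (UU W).F := by
  change (W.s₁.pun _ ≫ W.s₁.U.F.map (W.s₂.pun _)) ≫ W.s₁.U.F.map (W.s₂.U.F.map _) =
    ε W.s₁.U.F ≫ W.s₁.U.F.map (ε W.s₂.U.F)
  rw [Functor.map_comp, Functor.map_comp, ← Category.assoc, pun_gq, Category.assoc,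
    ← Functor.map_comp, pun_oe]

/-- the bottom cell -/
def fl (A : W.T₂.C) : (UU W).F.obj A ⟶ (UU W).F.obj (A ⊗ W.G) :=
  (ρ_ _).inv ≫ _ ◁ pt W ≫ μ (UU W).F A W.G

theorem bij_fl (A B : W.T₂.C) :
    Function.Bijective fun f : A ⊗ W.G ⟶ B => fl W A ≫ (UU W).F.map f := by
  refine Eq.subst (funext fun f => ?_) (((ρ_ _).homCongr (Iso.refl _)).bijective.comp
    ((bij W.s₁ _ _ _).comp (bij W.s₂ A W.s₁.O B)))
  change (ρ_ _).inv ≫ (_ ≫ _ ≫ _) ≫ 𝟙 (W.s₁.U.F.obj (W.s₂.U.F.obj B)) = ((ρ_ _).inv ≫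
    _ ◁ (W.s₁.pun _ ≫ W.s₁.U.F.map (W.s₂.pun _)) ≫ μ W.s₁.U.F _ _ ≫
      W.s₁.U.F.map (μ W.s₂.U.F _ _)) ≫ W.s₁.U.F.map (W.s₂.U.F.map f)
  simp only [Functor.map_comp, Category.assoc, Category.comp_id, MonoidalCategory.whiskerLeft_comp]
  rw [← μ_natural_right_assoc]

theorem iso_pt {r : (W.s₂.O⟦(1 : ℤ)⟧)⟦(1 : ℤ)⟧ ⟶ W.s₂.Lr} [IsIso (W.s₂.flat2 r)] :
    IsIso (((pt W)⟦(1 : ℤ)⟧')⟦(1 : ℤ)⟧' ≫ (c2 (UU W).F W.G).inv ≫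
      (UU W).F.map ((W.gq⟦(1 : ℤ)⟧')⟦(1 : ℤ)⟧' ≫ r)) := by
  rw [Functor.map_comp, ← c2_nat'_assoc, ← Functor.map_comp_assoc, ← Functor.map_comp]
  have h2 : (c2 (W.s₂.U.F ⋙ W.s₁.U.F) W.s₂.O).inv =
      (c2 W.s₁.U.F _).inv ≫ W.s₁.U.F.map (c2 W.s₂.U.F _).inv := by
    rw [eq_comm, ← Iso.hom_comp_eq_id, c2_comp]
    simp
  have h1 : ((ε W.s₁.U.F ≫ W.s₁.U.F.map (W.s₂.pun _))⟦(1 : ℤ)⟧')⟦(1 : ℤ)⟧' ≫
      ((c2 W.s₁.U.F _).inv ≫ W.s₁.U.F.map (c2 W.s₂.U.F _).inv) ≫ W.s₁.U.F.map (W.s₂.U.F.map r) =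
      ((ε W.s₁.U.F)⟦(1 : ℤ)⟧')⟦(1 : ℤ)⟧' ≫ (c2 W.s₁.U.F _).inv ≫ W.s₁.U.F.map (W.s₂.flat2 r) := by
    rw [flat2_eq, W.s₁.U.F.map_comp, ← c2_nat'_assoc, Functor.map_comp, Functor.map_comp,
      W.s₁.U.F.map_comp]
    simp only [Category.assoc]
  rw [← h2, ← pun_gq] at h1
  exact h1.symm ▸ (inferInstance : IsIso (((ε W.s₁.U.F)⟦(1 : ℤ)⟧')⟦(1 : ℤ)⟧' ≫
    (c2 W.s₁.U.F _).inv ≫ W.s₁.U.F.map (W.s₂.flat2 r)))

theorem iso_fl (S : W.T₂.C) {r : (W.s₂.O⟦(1 : ℤ)⟧)⟦(1 : ℤ)⟧ ⟶ W.s₂.Lr} [IsIso (W.s₂.flat2 r)]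
    {B : W.T₂.C} (k : S ⊗ W.G ⟶ B) (ω : S ⊗ W.s₂.Lr ≅ (B⟦(1 : ℤ)⟧)⟦(1 : ℤ)⟧)
    (h : (k⟦(1 : ℤ)⟧')⟦(1 : ℤ)⟧' = (c2 (tensorLeft S) W.G).inv ≫
      S ◁ ((W.gq⟦(1 : ℤ)⟧')⟦(1 : ℤ)⟧' ≫ r) ≫ ω.hom) : IsIso (fl W S ≫ (UU W).F.map k) := by
  have := iso_pt W (r := r)
  generalize (W.gq⟦(1 : ℤ)⟧')⟦(1 : ℤ)⟧' ≫ r = r' at this h
  have h3 : ((fl W S ≫ (UU W).F.map k)⟦(1 : ℤ)⟧')⟦(1 : ℤ)⟧' = (((ρ_ _).inv)⟦(1 : ℤ)⟧')⟦(1 : ℤ)⟧' ≫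
      (c2 (tensorLeft _) _).inv ≫ _ ◁ (((pt W)⟦(1 : ℤ)⟧')⟦(1 : ℤ)⟧' ≫ (c2 (UU W).F W.G).inv ≫
        (UU W).F.map r') ≫ μ (UU W).F S _ ≫ (UU W).F.map ω.hom ≫ (c2 (UU W).F B).hom := by
    have h4 : (((UU W).F.obj S ◁ pt W)⟦(1 : ℤ)⟧')⟦(1 : ℤ)⟧' ≫ _ = _ ≫ (UU W).F.obj S ◁ _ :=
      c2_nat' (tensorLeft ((UU W).F.obj S)) (pt W)
    have h5 := c2_nat' (UU W).F k
    rw [Iso.comp_inv_eq, h] at h5
    rw [fl]
    simp only [Functor.map_comp, Category.assoc, MonoidalCategory.whiskerLeft_comp] at h5 ⊢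
    rw [h5, reassoc_of% (mu_c2 (UU W) S W.G), ← μ_natural_right_assoc, reassoc_of% h4]
  have : IsIso (((fl W S ≫ (UU W).F.map k)⟦(1 : ℤ)⟧')⟦(1 : ℤ)⟧') := by
    rw [h3]
    infer_instance
  have := isIso_of_reflects_iso ((fl W S ≫ (UU W).F.map k)⟦(1 : ℤ)⟧') (shiftFunctor _ (1 : ℤ))
  exact isIso_of_reflects_iso _ (shiftFunctor _ (1 : ℤ))

/-- the cells of the faithful sphere -/
structure Rp where
  /-- the fundamental class -/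
  r : (W.G⟦(1 : ℤ)⟧)⟦(1 : ℤ)⟧ ⟶ W.L
  /-- the unit sphere -/
  P : W.T₂.C
  /-- the bottom cell -/
  e₀ : W.G ⟶ P
  /-- the top cell -/
  e₁ : P ⟶ W.G⟦(1 : ℤ)⟧
  /-- the collapse -/
  p : P ⟶ 𝟙_ W.T₂.C
  /-- the boundary -/
  b : W.L ⟶ P⟦(1 : ℤ)⟧
  d₁ : Dist (𝟙 W.G - (W.L₂.t.h W.G).hom) e₀ e₁
  d₂ : Dist p W.a b
  h₁ : e₀ ≫ p = W.gq ≫ W.s₂.oe
  h₂ : r ≫ b ≫ e₁⟦(1 : ℤ)⟧' =
    ((∑ i ∈ Finset.range 9, Dt.pw (W.L₂.t.h W.G).hom i)⟦(1 : ℤ)⟧')⟦(1 : ℤ)⟧'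

variable {W} (R : Rp W) (m : Mdl W)

/-- the cells tensored with `S` -/
def cells (S : W.T₂.C) : Cells W.T₂.C where
  F := S ⊗ W.G
  P := S ⊗ R.P
  S := S ⊗ 𝟙_ _
  L := S ⊗ W.L
  g := S ◁ (W.L₂.t.h W.G).hom
  e₀ := S ◁ R.e₀
  e₁ := S ◁ R.e₁ ≫ ((tensorLeft S).commShiftIso (1 : ℤ)).hom.app _
  p := S ◁ R.p
  a := S ◁ W.a
  b := S ◁ R.b ≫ ((tensorLeft S).commShiftIso (1 : ℤ)).hom.app _
  d₁ := by
    have h : 𝟙 (S ⊗ W.G) - S ◁ (W.L₂.t.h W.G).hom = S ◁ (𝟙 W.G - (W.L₂.t.h W.G).hom) :=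
      (congrArg (· - _) (MonoidalCategory.whiskerLeft_id _ _).symm).trans
        ((tensorLeft S).map_sub ..).symm
    rw [h]
    exact dist_whiskerLeft S R.d₁
  d₂ := dist_whiskerLeft S R.d₂

theorem cells_r (Φ : W.T₂.C ⥤ W.T₂.C) [Φ.CommShift ℤ] [Φ.Additive] :
    ((c2 Φ W.G).inv ≫ Φ.map R.r) ≫ (Φ.map R.b ≫ (Φ.commShiftIso (1 : ℤ)).hom.app _) ≫
      (Φ.map R.e₁ ≫ (Φ.commShiftIso (1 : ℤ)).hom.app _)⟦(1 : ℤ)⟧' =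
      ((∑ n ∈ Finset.range 9, Dt.pw (Φ.map (W.L₂.t.h W.G).hom) n)⟦(1 : ℤ)⟧')⟦(1 : ℤ)⟧' := by
  have h1 : ∀ n, Dt.pw (Φ.map (W.L₂.t.h W.G).hom) n = Φ.map (Dt.pw (W.L₂.t.h W.G).hom n) :=
    fun n => by
      induction n with
      | zero => exact (Φ.map_id _).symm
      | succ n ih => rw [Dt.pw, Dt.pw, ih, Functor.map_comp]
  rw [Finset.sum_congr rfl fun n _ => h1 n, ← Φ.map_sum, Category.assoc, Iso.inv_comp_eq, ← c2_nat,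
    ← R.h₂, c2_hom, Φ.map_comp, Φ.map_comp, Category.assoc, Category.assoc, Category.assoc,
    Φ.commShiftIso_hom_naturality_assoc, Functor.map_comp]

/-- the unit of `X` -/
theorem one_e : ε (UU W).F ≫ (UU W).F.map m.Y.one ≫ m.Y.e.hom = MonObj.one := by
  have h := m.Y.e_one
  rw [Functor.map_comp, Category.assoc] at h
  exact (Category.assoc _ _ _).trans h

/-- the underlying object of `X` -/
def eX : (UU W).F.obj m.X ≅ m.P.E := m.Y.e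

/-- the underlying object of `Y ⊗ X` -/
def κ (Y : W.T₀.C) : (UU W).F.obj ((tv W).obj Y ⊗ m.X) ≅ Y ⊗ m.P.E :=
  (Functor.Monoidal.μIso (UU W).F _ _).symm ≪≫ (τ W Y ⊗ᵢ eX m)

theorem κ_hom (Y : W.T₀.C) : (κ m Y).hom = δ (UU W).F _ _ ≫ ((τ W Y).hom ⊗ₘ (eX m).hom) := rfl

/-- the adjunction -/
def sig (P Y : W.T₀.C) : ((tv W).obj P ⊗ W.G ⟶ (tv W).obj Y ⊗ m.X) ≃+ (P ⟶ Y ⊗ m.P.E) :=
  AddEquiv.ofBijective (AddMonoidHom.mk'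
    (fun f => (τ W P).inv ≫ (fl W _ ≫ (UU W).F.map f) ≫ (κ m Y).hom) fun f g => by simp)
    (((τ W P).homCongr (κ m Y)).bijective.comp (bij_fl W _ _))

theorem sig_apply {P Y : W.T₀.C} (f : (tv W).obj P ⊗ W.G ⟶ (tv W).obj Y ⊗ m.X) :
    sig m P Y f = (τ W P).inv ≫ fl W _ ≫ (UU W).F.map f ≫ (κ m Y).hom :=
  congrArg _ (Category.assoc _ _ _)

theorem sig_nat {P X Y : W.T₀.C} (f : (tv W).obj P ⊗ W.G ⟶ (tv W).obj X ⊗ m.X) (a : X ⟶ Y) :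
    sig m P Y (f ≫ (tv W).map a ▷ m.X) = sig m P X f ≫ a ▷ m.P.E := by
  rw [sig_apply, sig_apply, κ_hom, κ_hom, Functor.map_comp]
  simp only [Category.assoc]
  rw [← δ_natural_left_assoc, ← tensorHom_id, ← tensorHom_id, tensorHom_comp_tensorHom,
    tensorHom_comp_tensorHom, τ_nat, Category.id_comp, Category.comp_id]

theorem sig_g {P Y : W.T₀.C} (f : (tv W).obj P ⊗ W.G ⟶ (tv W).obj Y ⊗ m.X) :
    sig m P Y (_ ◁ (W.L₂.t.h W.G).hom ≫ f) = sig m P Y f ≫ Y ◁ m.P.ρ := by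
  have h : ∀ (A : W.T₀.C) (B : W.T₂.C), (tv W).obj A ◁ (W.L₂.t.h B).hom =
      (W.L₂.t.h ((tv W).obj A ⊗ B)).hom := fun A B => by
    rw [W.L₂.t.ten, W.L₂.tv_h, id_tensorHom]
  have h1 : (UU W).F.map (W.L₂.t.h m.X).hom ≫ (eX m).hom = (eX m).hom ≫ m.P.ρ := m.Y.e_h
  rw [h, ← W.L₂.t.nat, ← h, sig_apply, sig_apply, κ_hom, Functor.map_comp]
  simp only [Category.assoc]
  rw [← δ_natural_right_assoc, ← id_tensorHom, ← id_tensorHom, tensorHom_comp_tensorHom,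
    tensorHom_comp_tensorHom, h1, Category.id_comp, Category.comp_id]

theorem sig_io (P : W.T₀.C) :
    sig m P P (_ ◁ R.e₀ ≫ _ ◁ R.p ≫ _ ◁ m.Y.one) = (ρ_ P).inv ≫ P ◁ MonObj.one := by
  have h : ε (UU W).F ≫ (UU W).F.map m.Y.one ≫ (eX m).hom = MonObj.one := one_e m
  rw [← MonoidalCategory.whiskerLeft_comp, ← MonoidalCategory.whiskerLeft_comp,
    ← Category.assoc R.e₀, R.h₁, sig_apply, κ_hom, fl, ← δ_natural_right_assoc]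
  simp only [Category.assoc]
  rw [Functor.Monoidal.μ_δ_assoc, ← MonoidalCategory.whiskerLeft_comp_assoc, ← id_tensorHom,
    tensorHom_comp_tensorHom, ← Category.assoc W.gq, Functor.map_comp, ← Category.assoc (pt W),
    pt_oe, Category.assoc, h, Category.id_comp, MonoidalCategory.tensorHom_def,
    ← rightUnitor_inv_naturality_assoc, Iso.inv_hom_id_assoc]

/-- the equivariant input -/
def eqD (P : W.T₀.C) : EqData (m.M.data m.b).R P W.T₂.C where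
  Z := cells R ((tv W).obj P)
  r := (c2 (tensorLeft _) W.G).inv ≫ _ ◁ R.r
  hr := cells_r R (tensorLeft _)
  Ψ := tv W ⋙ tensorRight m.X
  N := m.P.E
  gam := m.P.ρ
  u := m.P.uE
  hgam := by
    have h := m.P.ρ9
    simp only [Category.assoc] at h
    simp only [Dt.pw, Category.comp_id, h]
  σ := sig m P
  σ_nat := sig_nat m
  σ_g := sig_g m
  io := _ ◁ m.Y.one
  σ_io := sig_io R m P

/-- the reduction of `X` -/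
def rd {M : W.T₀.C} (i : 𝟙_ W.T₀.C ⟶ M) : m.X ⟶ (tv W).obj (𝟙_ _ ⊗ M) ⊗ m.X :=
  (λ_ _).inv ≫ (ε (tv W) ≫ (tv W).map (red i _)) ▷ m.X

theorem rd_κ {M : W.T₀.C} (i : 𝟙_ W.T₀.C ⟶ M) : (UU W).F.map (rd m i) ≫ (κ m _).hom =
    (eX m).hom ≫ (λ_ _).inv ≫ red i _ ▷ m.P.E := by
  rw [rd, κ_hom, Functor.map_comp, Category.assoc, ← δ_natural_left_assoc,
    Functor.Monoidal.map_leftUnitor_inv]
  simp only [Category.assoc]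
  rw [Functor.Monoidal.μ_δ_assoc, ← comp_whiskerRight_assoc, MonoidalCategory.tensorHom_def,
    ← comp_whiskerRight_assoc, Functor.map_comp, Category.assoc, Category.assoc, τ_nat,
    τ_one_assoc, ← whisker_exchange, leftUnitor_inv_naturality_assoc]

variable {w w' : ℤ} (hw : w + 1 = w')

/-- the double suspension -/
def om (A : W.T₂.C) : (tv W).obj ((stdEven W.T₀.C).S w') ⊗ A ≅
    (((tv W).obj ((stdEven W.T₀.C).S w) ⊗ A)⟦(1 : ℤ)⟧)⟦(1 : ℤ)⟧ :=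
  (tv W ⋙ tensorRight A).mapIso (eS hw) ≪≫ c2 (tv W ⋙ tensorRight A) _

@[reassoc]
theorem om_nat {A A' : W.T₂.C} (φ : A ⟶ A') :
    _ ◁ φ ≫ (om hw A').hom = (om hw A).hom ≫ ((_ ◁ φ)⟦(1 : ℤ)⟧')⟦(1 : ℤ)⟧' := by
  have h := c2_tr _ (Functor.whiskerLeft (tv W) (trMap φ)) ((stdEven W.T₀.C).S w)
  exact (whisker_exchange_assoc _ _ _).trans ((congrArg (_ ≫ ·) h.symm).trans
    (Category.assoc _ _ _).symm)

theorem img_eq {M : W.T₀.C} (f : (stdEven W.T₀.C).S w ⟶ M) :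
    (tv W ⋙ tensorRight m.X).map ((eS hw).hom ≫ (f⟦(1 : ℤ)⟧')⟦(1 : ℤ)⟧') ≫
      (c2 (tv W ⋙ tensorRight m.X) M).hom =
      (om hw m.X).hom ≫ (((tv W).map f ▷ m.X)⟦(1 : ℤ)⟧')⟦(1 : ℤ)⟧' := by
  rw [Functor.map_comp, Category.assoc, c2_nat]
  exact (Category.assoc _ _ _).symm

theorem img_a {M : W.T₀.C} (i : 𝟙_ W.T₀.C ⟶ M) (θ : (stdEven W.T₀.C).S w ⟶ 𝟙_ W.T₀.C)
    {c : W.L ⟶ W.s₂.Lr} (hc : W.a ≫ c = W.s₂.ar) {y : W.s₂.Lr ⊗ (tv W).obj _ ⟶ m.X}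
    (hy : (λ_ _).inv ≫ W.s₂.ar ▷ _ ≫ y = (tv W).map θ ≫ η (tv W) ≫ m.Y.one) :
    _ ◁ m.Y.one ≫ (tv W ⋙ tensorRight m.X).map ((eS hw).hom ≫
      ((θ ≫ red i _)⟦(1 : ℤ)⟧')⟦(1 : ℤ)⟧') ≫ (c2 (tv W ⋙ tensorRight m.X) _).hom =
      _ ◁ W.a ≫ _ ◁ c ≫ (om hw W.s₂.Lr).hom ≫
        (((β_ _ _).hom ≫ y ≫ rd m i)⟦(1 : ℤ)⟧')⟦(1 : ℤ)⟧' := by
  rw [img_eq, ← MonoidalCategory.whiskerLeft_comp_assoc, hc, om_nat_assoc, om_nat_assoc,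
    ← Functor.map_comp, ← Functor.map_comp, ← Functor.map_comp, ← Functor.map_comp]
  congr 3
  rw [Iso.inv_comp_eq] at hy
  rw [BraidedCategory.braiding_naturality_right_assoc, reassoc_of% hy, rd,
    leftUnitor_inv_naturality_assoc m.Y.one, whisker_exchange, whisker_exchange,
    braiding_tensorUnit_right, Category.assoc, Iso.inv_hom_id_assoc, unitors_inv_equal,
    rightUnitor_inv_naturality_assoc, rightUnitor_inv_naturality_assoc, Iso.hom_inv_id_assoc,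
    ← comp_whiskerRight_assoc, ← comp_whiskerRight_assoc, Category.assoc,
    Functor.Monoidal.η_ε_assoc, Functor.map_comp]

theorem odd_X {b : ℕ} {M : W.T₀.C} {i : 𝟙_ W.T₀.C ⟶ M} {δ : M ⟶ (𝟙_ W.T₀.C)⟦(1 : ℤ)⟧}
    (hM : Dist ((3 : ℤ) ^ b • 𝟙 (𝟙_ W.T₀.C)) i δ) (hw : w + 1 = w') (ho : Odd w)
    (f : ((tv W).obj ((stdEven W.T₀.C).S w') ⊗ W.G)⟦(1 : ℤ)⟧ ⟶
      (((tv W ⋙ tensorRight m.X).obj (𝟙_ _ ⊗ M))⟦(1 : ℤ)⟧)⟦(1 : ℤ)⟧) : f = 0 := by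
  obtain ⟨f, rfl⟩ := (shiftFunctor W.T₂.C (1 : ℤ)).map_surjective f
  have h := (sig m _ _).map_eq_zero_iff.1 (odd3 m.A hw hM ho (sig m _ _
    (f ≫ (((tv W ⋙ tensorRight m.X).commShiftIso (1 : ℤ)).app _).inv)))
  rw [(cancel_mono _).1 (h.trans zero_comp.symm), Functor.map_zero]

end DG

open DG in
theorem stDG : StDG := by
  intro W hG m j w hj hw hD H _ _ hH θ
  obtain ⟨⟨r, ⟨P, e₀, e₁, p, b, d1, d2, h1, h2⟩, -⟩, -⟩ := hG.c9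
  obtain ⟨⟨r', h3, h4⟩, -⟩ := hG.c2
  obtain ⟨c, k1, k2⟩ := exists_c W ⟨P, e₀, e₁, p, b, d1, d2, h1, h2⟩ h3
  obtain ⟨t1, ht⟩ := T1 3
  have h9 : (9 : ℤ) ∣ Det.w0 j := by
    obtain ⟨k, rfl⟩ := Nat.exists_eq_add_of_le hj
    exact ⟨2 * 3 ^ k, by rw [Det.w0]; ring⟩
  have ho : Odd w := ⟨3 ^ (j + 1) - 1, by rw [Det.w0] at hw; linear_combination hw⟩
  refine (det (m.M.data m.b) (Det.list j) hH.conc ((hH.ord 3).2 dvd_rfl) hw θ ht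
    (eqD ⟨r, P, e₀, e₁, p, b, d1, d2, h1, h2⟩ m _) fun n M i δ hn hM => ?_).af
  obtain ⟨Λ, l1, l2⟩ := exists_val m.A hw hM hn h9
  obtain ⟨y, y1, y2⟩ := hD ((tv W).map θ ≫ η (tv W) ≫ m.Y.one)
  obtain ⟨k, hk⟩ := ((shiftFunctor W.T₂.C (1 : ℤ)) ⋙ (shiftFunctor W.T₂.C (1 : ℤ))).map_surjective
    ((c2 (tensorLeft _) W.G).inv ≫ _ ◁ ((W.gq⟦(1 : ℤ)⟧')⟦(1 : ℤ)⟧' ≫ r') ≫ (om hw W.s₂.Lr).hom)
  replace hk : (k⟦(1 : ℤ)⟧')⟦(1 : ℤ)⟧' = _ := hk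
  have := iso_fl W _ k _ hk
  have a2 : ((c2 (tensorLeft _) W.G).inv ≫ _ ◁ r) ≫ _ ◁ c ≫ (om hw W.s₂.Lr).hom ≫
      (((β_ _ _).hom ≫ y ≫ rd m i)⟦(1 : ℤ)⟧')⟦(1 : ℤ)⟧' =
      (((3 : ℤ) • (k ≫ (β_ _ _).hom ≫ y ≫ rd m i))⟦(1 : ℤ)⟧')⟦(1 : ℤ)⟧' := by
    rw [Functor.map_zsmul, Functor.map_zsmul, Functor.map_comp _ k,
      Functor.map_comp _ (k⟦(1 : ℤ)⟧'), hk,
      Category.assoc, ← MonoidalCategory.whiskerLeft_comp_assoc, k2, Category.assoc, Category.assoc,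
      show _ ◁ ((3 : ℤ) • _) = (3 : ℤ) • _ ◁ _ from (tensorLeft ((tv W).obj _)).map_zsmul ..,
      Preadditive.zsmul_comp, Preadditive.comp_zsmul]
  have a3 : Λ (sig m _ _ ((3 : ℤ) • (k ≫ (β_ _ _).hom ≫ y ≫ rd m i))) = 3 * val m.A _
      ((τ W _).inv ≫ (fl W _ ≫ (UU W).F.map k) ≫ (UU W).F.map (β_ _ _).hom ≫
        (UU W).F.map y ≫ (eX m).hom) := by
    rw [map_zsmul, map_zsmul, zsmul_eq_mul, ← l1, sig_apply, Functor.map_comp, Functor.map_comp,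
      Functor.map_comp]
    simp only [Category.assoc, rd_κ, Int.cast_ofNat]
  refine ⟨⟨_, 𝟙 _, odd_X m hM hw ho, m.A.B, maximalIdeal _, m.A.h27, m.A.h9,
    Λ.comp (sig m _ _).toAddMonoidHom, fun f => (congrArg Λ (sig_g m f)).trans (l2 _)⟩,
    fun h c hI hm => dvd m.A ht h c _ hI ?_, _, _, _, Eq.trans ?_ (img_a m hw i θ k1 y1), a2, a3,
    fun h => ?_⟩
  · rw [← l1, ← (sig m _ _).apply_symm_apply (_ ≫ _), ← Category.comp_id ((sig m _ _).symm _)]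
    exact hm
  · refine congrArg (_ ≫ _ ≫ _ ≫ ·) (Eq.trans (congrArg (_ ≫ ·) ?_) (Category.comp_id _))
    exact (congrArg _ (CategoryTheory.Functor.map_id _ _)).trans (CategoryTheory.Functor.map_id _ _)
  · have h' := (m.isU₀_iff _).2 (IsLocalHom.map_nonunit (f := m.A.lam) _ h)
    rw [m.isU₀_iso, m.isU₀_iso, m.isU₀_iso] at h'
    exact y2 ((m.isU₂_iff₀ y).2 h')

end Vale.Agent.P236Z.Top
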