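import Vale.Agent.P236Z.Top.Geo
import Vale.Agent.P236Z.Cat.Sh

/-!
# P236: the norms of the circle and of the plane, the diagonals
-/

open CategoryTheory MonoidalCategory Limits Pretriangulated
open Functor.LaxMonoidal Functor.OplaxMonoidal
open Vale.Agent.P251 Vale.Agent.P251.T Vale.Agent.P251.G Vale.Agent.P251.I Vale.Agent.P251.M
open scoped ComplexConjugate

noncomputable section

namespace Vale.Agent.P236Z.Cat

namespace GeoN

theorem z_cube : (z3 : ℂ) ^ 3 = 1 := by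
  rw [pow_three', ← Circle.coe_mul, ← Circle.coe_mul, z3_cube, Circle.coe_one]

theorem z_sum : (z3 : ℂ) ^ 2 + z3 + 1 = 0 := by
  have h : (z3 : ℂ) ≠ 1 := fun h => by
    have h1 : Circle.exp (2 * Real.pi / 3) = 1 := by
      rw [← Circle.coe_eq_one.1 h, z3, z9, ← Circle.exp_add, ← Circle.exp_add]
      congr 1
      ring
    obtain ⟨n, hn⟩ := Circle.exp_eq_one.1 h1
    have h2 : (3 * n : ℝ) = 1 :=
      mul_right_cancel₀ Real.two_pi_pos.ne' (by linear_combination -3 * hn)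
    have h3 : 3 * n = 1 := by exact_mod_cast h2
    omega
  exact mul_left_cancel₀ (sub_ne_zero.2 h) (by linear_combination z_cube)

theorem z_conj : conj (z3 : ℂ) = z3 ^ 2 := by
  rw [← Circle.coe_inv_eq_conj, Circle.coe_inv]
  exact inv_eq_of_mul_eq_one_right (by linear_combination z_cube)

theorem z_re : (z3 : ℂ).re = -1 / 2 := by
  have h := congrArg Complex.re z_sum
  rw [← z_conj] at h
  simp only [Complex.add_re, Complex.conj_re, Complex.one_re, Complex.zero_re] at h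
  linarith

theorem z_im : (z3 : ℂ).im ^ 2 = 3 / 4 := by
  have h := Circle.normSq_coe z3
  rw [Complex.normSq_apply, z_re] at h
  linarith

/-- the regular representation -/
def hR : ℝ × ℝ × ℝ ≃ₜ ℝ × ℂ where
  toFun p := ((p.1 + p.2.1 + p.2.2) / 3, p.1 + z3 * p.2.1 + z3 ^ 2 * p.2.2)
  invFun q := (q.1 + 2 / 3 * q.2.re, q.1 - q.2.re / 3 + 2 / 3 * (z3 : ℂ).im * q.2.im,
    q.1 - q.2.re / 3 - 2 / 3 * (z3 : ℂ).im * q.2.im)
  left_inv := fun ⟨a, b, c⟩ => by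
    rw [← z_conj]
    refine Prod.ext ?_ (Prod.ext ?_ ?_) <;> simp [z_re]
    · ring
    · linear_combination 2 / 3 * (b - c) * z_im
    · linear_combination -2 / 3 * (b - c) * z_im
  right_inv := fun ⟨m, w⟩ => by
    rw [← z_conj]
    refine Prod.ext ?_ (Complex.ext ?_ ?_) <;> simp [z_re]
    · ring
    · ring
    · linear_combination 4 / 3 * w.im * z_im
  continuous_toFun := by fun_prop
  continuous_invFun := by fun_prop

/-- the complex regular representation -/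
def hC : ℂ × ℂ × ℂ ≃ₜ ℂ × ℂ × ℂ where
  toFun p := ((p.1 + p.2.1 + p.2.2) / 3, p.1 + z3 * p.2.1 + z3 ^ 2 * p.2.2,
    conj (p.1 + z3 ^ 2 * p.2.1 + z3 * p.2.2))
  invFun q := (q.1 + (q.2.1 + conj q.2.2) / 3, q.1 + (z3 ^ 2 * q.2.1 + z3 * conj q.2.2) / 3,
    q.1 + (z3 * q.2.1 + z3 ^ 2 * conj q.2.2) / 3)
  left_inv := fun ⟨a, b, c⟩ => by
    refine Prod.ext ?_ (Prod.ext ?_ ?_) <;> simp only [Complex.conj_conj]
    · linear_combination (b + c) / 3 * z_sum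
    · linear_combination (a + c) / 3 * z_sum + (2 * b + z3 * c) / 3 * z_cube
    · linear_combination (a + b) / 3 * z_sum + (2 * c + z3 * b) / 3 * z_cube
  right_inv := fun ⟨m, w, w'⟩ => by
    refine Prod.ext ?_ (Prod.ext ?_ ((starRingEnd ℂ).injective ?_)) <;>
      simp only [Complex.conj_conj]
    · linear_combination (w + conj w') / 9 * z_sum
    · linear_combination (m + conj w' / 3) * z_sum + (2 * w + z3 * conj w') / 3 * z_cube
    · linear_combination (m + w / 3) * z_sum + (2 * conj w' + z3 * w) / 3 * z_cube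
  continuous_toFun := by fun_prop
  continuous_invFun := by fun_prop

/-- the third power of the line -/
def eR : RRF ⊗ RRF ⊗ RRF ≅ RRF ⊗ CCF :=
  FCP.isoMk (LC.ofHomeo (X := LC.of (ℝ × ℝ × ℝ)) (Y := LC.of (ℝ × ℂ)) hR)

/-- the third power of the plane -/
def eC : CCF ⊗ CCF ⊗ CCF ≅ CCF ⊗ CCF ⊗ CCF :=
  FCP.isoMk (LC.ofHomeo (X := LC.of (ℂ × ℂ × ℂ)) (Y := LC.of (ℂ × ℂ × ℂ)) hC)

theorem rot_eR : rot RRF RRF RRF ≫ eR.hom = eR.hom ≫ RRF ◁ rotF z3 := by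
  refine ObjectProperty.hom_ext _ (LC.hom_ext ?_)
  rintro ⟨a, b, c⟩
  change ((hR (c, a, b) : ℝ × ℂ) : OnePoint (ℝ × ℂ)) =
    (((hR (a, b, c)).1, z3 * (hR (a, b, c)).2) : ℝ × ℂ)
  refine congrArg _ (Prod.ext ?_ ?_)
  · change (c + a + b) / 3 = (a + b + c) / 3
    ring
  · change (c + z3 * a + z3 ^ 2 * b : ℂ) = z3 * (a + z3 * b + z3 ^ 2 * c)
    linear_combination -c * z_cube

theorem dg_eR : dgF RRF ≫ eR.hom = (ρ_ _).inv ≫ RRF ◁ orgF := by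
  refine ObjectProperty.hom_ext _ (LC.hom_ext fun (a : ℝ) => ?_)
  change ((hR (a, a, a) : ℝ × ℂ) : OnePoint (ℝ × ℂ)) = ((a, 0) : ℝ × ℂ)
  refine congrArg _ (Prod.ext ?_ ?_)
  · change (a + a + a) / 3 = a
    ring
  · change (a + z3 * a + z3 ^ 2 * a : ℂ) = 0
    linear_combination a * z_sum

theorem rot_eC : rot CCF CCF CCF ≫ eC.hom = eC.hom ≫ CCF ◁ (rotF z3 ⊗ₘ rotF z3) := by
  refine ObjectProperty.hom_ext _ (LC.hom_ext ?_)
  rintro ⟨a, b, c⟩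
  change ((hC (c, a, b) : ℂ × ℂ × ℂ) : OnePoint (ℂ × ℂ × ℂ)) =
    (((hC (a, b, c)).1, z3 * (hC (a, b, c)).2.1, z3 * (hC (a, b, c)).2.2) : ℂ × ℂ × ℂ)
  refine congrArg _ (Prod.ext ?_ (Prod.ext ?_ ((starRingEnd ℂ).injective ?_)))
  · change (c + a + b) / 3 = (a + b + c) / 3
    ring
  · change (c + z3 * a + z3 ^ 2 * b : ℂ) = z3 * (a + z3 * b + z3 ^ 2 * c)
    linear_combination -c * z_cube
  · change conj (conj (c + z3 ^ 2 * a + z3 * b : ℂ)) = conj (z3 * conj (a + z3 ^ 2 * b + z3 * c))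
    rw [map_mul (starRingEnd ℂ) (z3 : ℂ), z_conj, Complex.conj_conj, Complex.conj_conj]
    linear_combination -(c + z3 * b) * z_cube

theorem dg_eC : dgF CCF ≫ eC.hom = (ρ_ _).inv ≫ CCF ◁ ((λ_ _).inv ≫ (orgF ⊗ₘ orgF)) := by
  refine ObjectProperty.hom_ext _ (LC.hom_ext fun (a : ℂ) => ?_)
  change ((hC (a, a, a) : ℂ × ℂ × ℂ) : OnePoint (ℂ × ℂ × ℂ)) = ((a, 0, 0) : ℂ × ℂ × ℂ)
  refine congrArg _ (Prod.ext ?_ (Prod.ext ?_ ((map_eq_zero (starRingEnd ℂ)).2 ?_)))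
  · change (a + a + a) / 3 = a
    ring
  · change (a + z3 * a + z3 ^ 2 * a : ℂ) = 0
    linear_combination a * z_sum
  · change (a + z3 ^ 2 * a + z3 * a : ℂ) = 0
    linear_combination a * z_sum

theorem dgF_nat {X Y : FCat} (f : X ⟶ Y) : f ≫ dgF Y = dgF X ≫ (f ⊗ₘ f ⊗ₘ f) := by
  refine ObjectProperty.hom_ext _ (LC.hom_ext fun x => ?_)
  change LC.app (Y.obj ◁ Q.diag Y.obj) (LC.app (Q.diag Y.obj) (LC.app f.hom x)) =
    LC.smash (LC.app f.hom x) (LC.smash (LC.app f.hom x) (LC.app f.hom x))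
  rw [Q.app_diag', LC.app_whiskerLeft_smash, Q.app_diag']

theorem dgF_mul (X Y : FCat) : dgF (X ⊗ Y) = (dgF X ⊗ₘ dgF Y) ≫ mix X X X Y Y Y :=
  ObjectProperty.hom_ext _ (LC.hom_ext fun _ => rfl)

theorem dgF_one : dgF (𝟙_ FCat) = ε (cube FCat) := by
  rw [cube_ε]
  exact ObjectProperty.hom_ext _ (LC.hom_ext fun _ => rfl)

section

variable {C D : Type 1} [Category.{0} C] [MonoidalCategory C] [Category.{0} D] [MonoidalCategory D]
  (G : C ⥤ D) [G.Monoidal]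

@[reassoc]
theorem map_pt (A : C) {P : C} (o : 𝟙_ C ⟶ P) : G.map ((ρ_ A).inv ≫ A ◁ o) ≫ δ G A P =
    (ρ_ (G.obj A)).inv ≫ G.obj A ◁ (ε G ≫ G.map o) := by
  simp

theorem map_two {P Q : C} (o : 𝟙_ C ⟶ P) (o' : 𝟙_ C ⟶ Q) :
    ε G ≫ G.map ((λ_ _).inv ≫ (o ⊗ₘ o')) ≫ δ G P Q =
      (λ_ _).inv ≫ ((ε G ≫ G.map o) ⊗ₘ (ε G ≫ G.map o')) := by
  rw [G.map_comp, Category.assoc, ← δ_natural, Functor.Monoidal.map_leftUnitor_inv,
    ← tensorHom_comp_tensorHom, MonoidalCategory.tensorHom_def' (ε G)]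
  simp only [Category.assoc, Functor.Monoidal.μ_δ_assoc, leftUnitor_inv_naturality_assoc]

end

section

variable {K : Type 1} [Category.{0} K] [MonoidalCategory K] [SymmetricCategory K] {tK : Tw K}
  (v : FCat ⥤ K) [v.Braided] (hv : ∀ X, (tK.h (v.obj X)).hom = 𝟙 _)

/-- the underlying map of the diagonal -/
def dg0 (X : FCat) : v.obj X ⟶ v.obj X ⊗ v.obj X ⊗ v.obj X :=
  v.map (dgF X) ≫ δ v X (X ⊗ X) ≫ v.obj X ◁ δ v X X

@[reassoc]
theorem dg0_m3 (X : FCat) : dg0 v X ≫ m3 v X X X = v.map (dgF X) := by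
  simp only [dg0, m3, Category.assoc, Functor.Monoidal.whiskerLeft_δ_μ_assoc,
    Functor.Monoidal.δ_μ, Category.comp_id]

/-- the diagonal as a natural transformation -/
def dgT : Rt.triv v hv ⟶ v ⋙ Rt.N tK where
  app := dgK v hv
  naturality X Y f := Rt.hom_ext (show v.map f ≫ dg0 v Y =
      dg0 v X ≫ (v.map f ⊗ₘ v.map f ⊗ₘ v.map f) by
    rw [← cancel_mono (m3 v Y Y Y), Category.assoc, Category.assoc, dg0_m3, m3_natural,
      dg0_m3_assoc, ← v.map_comp, ← v.map_comp, dgF_nat])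

instance : NatTrans.IsMonoidal (dgT v hv) where
  unit := Rt.hom_ext (show ε v ≫ dg0 v _ = ε (v ⋙ cube K) by
    rw [← cancel_mono ((cubeIso v).hom.app _), NatTrans.IsMonoidal.unit, comp_ε, cubeIso_hom,
      Category.assoc, dg0_m3, dgF_one])
  tensor X Y := Rt.hom_ext (show μ v X Y ≫ dg0 v _ = (dg0 v X ⊗ₘ dg0 v Y) ≫ μ (v ⋙ cube K) X Y by
    rw [← cancel_mono ((cubeIso v).hom.app _), Category.assoc, Category.assoc,
      NatTrans.IsMonoidal.tensor, comp_μ, cube_μ, cubeIso_hom, cubeIso_hom, cubeIso_hom,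
      tensorHom_comp_tensorHom_assoc, dg0_m3, dg0_m3, dg0_m3, dgF_mul, μ_natural_assoc, v.map_comp])

theorem exists_iso {X Z : FCat} {r : Z ⟶ Z} {o : 𝟙_ FCat ⟶ Z} (e : X ⊗ X ⊗ X ≅ X ⊗ Z)
    (h1 : rot X X X ≫ e.hom = e.hom ≫ X ◁ r) (h2 : dgF X ≫ e.hom = (ρ_ _).inv ≫ X ◁ o)
    {P : Rt tK} (ψ : v.obj Z ≅ P.obj) (h3 : v.map r ≫ ψ.hom = ψ.hom ≫ P.γ) {o' : 𝟙_ _ ⟶ P}
    (h4 : o'.hom = ε v ≫ v.map o ≫ ψ.hom) :
    ∃ e' : (Rt.N tK).obj (v.obj X) ≅ (Rt.triv v hv).obj X ⊗ P,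
      dgK v hv X ≫ e'.hom = (ρ_ _).inv ≫ _ ◁ o' := by
  let e₀ : v.obj X ⊗ v.obj X ⊗ v.obj X ≅ v.obj X ⊗ P.obj := asIso (m3 v X X X) ≪≫ v.mapIso e ≪≫
    (Functor.Monoidal.μIso v X Z).symm ≪≫ whiskerLeftIso _ ψ
  refine ⟨Rt.isoMk e₀ ?_, Rt.hom_ext ?_⟩
  · change tK.rot (v.obj X) ≫ m3 v X X X ≫ v.map e.hom ≫ δ v X Z ≫ v.obj X ◁ ψ.hom =
      (m3 v X X X ≫ v.map e.hom ≫ δ v X Z ≫ v.obj X ◁ ψ.hom) ≫ (𝟙 (v.obj X) ⊗ₘ P.γ)
    rw [Tw.rot, hv, id_tensorHom_id, id_tensorHom_id, Category.comp_id, rot_m3_assoc,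
      ← v.map_comp_assoc, h1, v.map_comp_assoc, ← δ_natural_right_assoc, id_tensorHom]
    simp only [Category.assoc, ← MonoidalCategory.whiskerLeft_comp, h3]
  · change dg0 v X ≫ m3 v X X X ≫ v.map e.hom ≫ δ v X Z ≫ v.obj X ◁ ψ.hom =
      (ρ_ (v.obj X)).inv ≫ v.obj X ◁ o'.hom
    rw [dg0_m3_assoc, ← v.map_comp_assoc, h2, h4, map_pt_assoc,
      ← MonoidalCategory.whiskerLeft_comp, Category.assoc]

end

end GeoN

open GeoN

variable {T₀ : TTC} {F : SpaceFunctor T₀.C} {T T' : TTC} {K : Type 1} [Category.{0} K]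
  [MonoidalCategory K] [SymmetricCategory K] {tK : Tw K} {u : K ⥤ FCat} {v : FCat ⥤ K}
  [v.Braided] {hv : ∀ X, (tK.h (v.obj X)).hom = 𝟙 _} {L : Lvl T₀ F T tK u v}
  {L' : Lvl T₀ F T' (Rt.tw tK) (Rt.U tK ⋙ u) (Rt.triv v hv)} (s : Step L L')

theorem GeoN.exists_ω {X : FCat} {P : Rt tK} {o : 𝟙_ _ ⟶ P}
    (h : ∃ e : (Rt.N tK).obj (v.obj X) ≅ (Rt.triv v hv).obj X ⊗ P,
      dgK v hv X ≫ e.hom = (ρ_ _).inv ≫ _ ◁ o) :
    ∃ ω : s.N.obj (L.tv.F.obj (F.S.obj X)) ≅ L'.tv.F.obj (F.S.obj X) ⊗ L'.J.obj P,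
      s.dg X ≫ ω.hom = (ρ_ _).inv ≫ _ ◁ (ε L'.J ≫ L'.J.map o) := by
  obtain ⟨e, he⟩ := h
  refine ⟨s.N.mapIso (L.Jtv.app X).symm ≪≫ s.JN.app (v.obj X) ≪≫ L'.J.mapIso e ≪≫
    (Functor.Monoidal.μIso L'.J _ _).symm ≪≫ whiskerRightIso (L'.Jtv.app X) _, ?_⟩
  have h1 : L'.J.map (dgK v hv X) ≫ L'.J.map e.hom = L'.J.map ((ρ_ _).inv ≫ _ ◁ o) := by
    rw [← L'.J.map_comp, he]
  simp only [Step.dg, Iso.trans_hom, Functor.mapIso_hom, Iso.symm_hom, Iso.app_inv, Iso.app_hom,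
    Category.assoc, Functor.Monoidal.μIso_inv, whiskerRightIso_hom]
  have h2 : s.N.map (L.Jtv.hom.app X) ≫ s.N.map (L.Jtv.inv.app X) = 𝟙 _ :=
    (L.Jtv.app X).map_hom_inv_id s.N
  rw [reassoc_of% h2, Iso.inv_hom_id_app_assoc, reassoc_of% h1, map_pt_assoc, whisker_exchange,
    ← rightUnitor_inv_naturality_assoc, Iso.inv_hom_id_app_assoc]
  rfl

namespace Step

/-- the norm of the circle -/
theorem nSph : s.NSph :=
  exists_ω s (exists_iso v hv eR rot_eR dg_eR (P := Pl v hv) (Iso.refl _)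
    ((Category.comp_id _).trans (Category.id_comp _).symm) (o' := org v hv)
    (congrArg (ε v ≫ ·) (Category.comp_id _).symm))

/-- the norm of the plane -/
theorem nPl : s.NPl := by
  obtain ⟨ω, hω⟩ := exists_ω s (exists_iso v hv eC rot_eC dg_eC (P := Pl v hv ⊗ Pl v hv)
    (Functor.Monoidal.μIso v CCF CCF).symm (δ_natural v _ _).symm
    (o' := (λ_ _).inv ≫ (org v hv ⊗ₘ org v hv)) (map_two v orgF orgF).symm)
  refine ⟨ω ≪≫ whiskerLeftIso _ (Functor.Monoidal.μIso L'.J _ _).symm, ?_⟩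
  change s.dg CCF ≫ ω.hom ≫ _ ◁ δ L'.J (Pl v hv) (Pl v hv) = _
  rw [reassoc_of% hω, ← MonoidalCategory.whiskerLeft_comp, Category.assoc, map_two]
  rfl

/-- the diagonal is natural and multiplicative -/
theorem dgNat : s.DgNat := by
  let τ : F.S ⋙ L'.tv.F ⟶ (F.S ⋙ L.tv.F) ⋙ s.N := L'.Jtv.inv ≫
    Functor.whiskerRight (dgT v hv) L'.J ≫ (Functor.associator _ _ _).hom ≫
    Functor.whiskerLeft v s.JN.inv ≫ (Functor.associator _ _ _).inv ≫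
    Functor.whiskerRight L.Jtv.hom s.N
  have h : ∀ X, τ.app X = s.dg X := fun X => by simp [τ, dg, dgT]
  have hτ : NatTrans.IsMonoidal τ := by
    unfold τ
    repeat' apply NatTrans.IsMonoidal.comp
  refine ⟨fun f => ?_, fun X Y => ?_, ?_⟩
  · rw [← h, ← h]
    exact τ.naturality f
  · have h1 := hτ.tensor X Y
    rw [h, h, h, comp_μ, comp_μ, comp_μ, Category.assoc] at h1
    exact h1
  · have h1 := hτ.unit
    rw [h, comp_ε, comp_ε, comp_ε, Category.assoc] at h1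
    exact h1

end Step

end Vale.Agent.P236Z.Cat
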