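import Vale.Agent.P236Z.Top.GeoCel
import Vale.Agent.P236Z.Top.GeoN

/-!
# P236: the geometric facts
-/

namespace Vale.Agent.P236Z.Cat

theorem stGeo : StGeo := fun W =>
  ⟨W.cel1, W.cel2, W.cel9, W.s₁.nSph, W.s₂.nSph, W.s₁.nPl, W.s₁.dgNat, W.s₂.nPl, W.s₂.dgNat⟩

end Vale.Agent.P236Z.Cat
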