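import Vale.Agent.P236Z.Top.Mdl
import Vale.Agent.P236Z.Mod.Gen
import Vale.Agent.P236Z.Tate.Br2
import Vale.Agent.P236Z.Tate.Inv
import Vale.Agent.P236Z.Tate.Bra
import Vale.Agent.P236Z.Tate.Of
import Vale.Agent.P236Z.Tate.S9i
import Vale.Agent.P236Z.Tate.Qr

/-!
# P236, TT: from the output of the block TATE to the input of the block FORCE
-/

open CategoryTheory MonoidalCategory Limits Pretriangulated
open Vale.Agent.P251 Vale.Agent.P251.T Vale.Agent.P251.M Vale.Agent.P251.S Vale.Agent.P251.F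
  Vale.Agent.P251.I Vale.Agent.P251.X Vale.Agent.P236Z.Cat Vale.Agent.P236Z.Mod IsLocalRing

set_option linter.unusedSectionVars false

noncomputable section

namespace Vale.Agent.P236Z.Top

namespace TTI

variable {T : Type 1} [Category.{0} T] [Preadditive T] [HasZeroObject T]
    [HasShift T ℤ] [∀ n : ℤ, (shiftFunctor T n).Additive] [Pretriangulated T] [IsTriangulated T]
    [MonoidalCategory T] [SymmetricCategory T] [TensorTriangulated T] [MonoidalClosed T]
    [HasCoproducts.{0} T] [HasProducts.{0} T] [StableCat T] {D : MUData T} {P : EDat D}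
    (A : Alg P)

theorem mem_iff (m : ℤ) (a : HRing (stdEven T) P.E) :
    a ∈ deg P.E (4 * m) ↔ ∃ u, HRing.of (stdEven T) P.E (2 * m) u = a := by
  unfold deg
  rw [if_pos (dvd_mul_right 4 m), show 4 * m / 2 = 2 * m by omega]
  rfl

theorem mul_mem {m n k : ℤ} (e : m + n = k) {a b : HRing (stdEven T) P.E}
    (ha : a ∈ deg P.E (4 * m)) (hb : b ∈ deg P.E (4 * n)) : a * b ∈ deg P.E (4 * k) := by
  obtain ⟨u, rfl⟩ := (mem_iff m a).1 ha
  obtain ⟨v, rfl⟩ := (mem_iff n b).1 hb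
  exact (mem_iff k _).2 ⟨_, (of_mul_of (by omega) u v).symm⟩

theorem one_mem : (1 : HRing (stdEven T) P.E) ∈ deg P.E (4 * 0) :=
  (mem_iff 0 _).2 ⟨_, of_one⟩

theorem inj {m : ℤ} {a b : HRing (stdEven T) P.E} (ha : a ∈ deg P.E (4 * m))
    (hb : b ∈ deg P.E (4 * m)) (e : A.ev a = A.ev b) : a = b := by
  obtain ⟨u, rfl⟩ := (mem_iff m a).1 ha
  obtain ⟨v, rfl⟩ := (mem_iff m b).1 hb
  rw [(A.bij (2 * m) (even_two_mul m)).1 e]

theorem surj (m : ℤ) (r : A.R) : ∃ a ∈ deg P.E (4 * m), A.ev a = r := by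
  obtain ⟨u, hu⟩ := (A.bij (2 * m) (even_two_mul m)).2 r
  exact ⟨_, (mem_iff m _).2 ⟨u, rfl⟩, hu⟩

/-- the element of degree `4 m` with a given value -/
def el (m : ℤ) (r : A.R) : HRing (stdEven T) P.E := (surj A m r).choose

theorem el_mem (m : ℤ) (r : A.R) : el A m r ∈ deg P.E (4 * m) := (surj A m r).choose_spec.1

theorem ev_el (m : ℤ) (r : A.R) : A.ev (el A m r) = r := (surj A m r).choose_spec.2

/-- the inclusion of the part of degree zero -/
def io : A.R →+* HRing (stdEven T) P.E where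
  toFun := el A 0
  map_one' := inj A (el_mem A 0 1) one_mem (by rw [ev_el, map_one])
  map_mul' a b := inj A (el_mem A 0 _) (mul_mem (by simp) (el_mem A 0 a) (el_mem A 0 b))
    (by simp only [ev_el, map_mul])
  map_zero' := inj A (el_mem A 0 0) (zero_mem _) (by rw [ev_el, map_zero])
  map_add' a b := inj A (el_mem A 0 _) (add_mem (el_mem A 0 a) (el_mem A 0 b))
    (by simp only [ev_el, map_add])

/-- the periodicity class -/
def vv : (HRing (stdEven T) P.E)ˣ :=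
  Units.mkOfMulEqOne (el A 1 1) (el A (-1) 1) (inj A
    (mul_mem (by simp) (el_mem A 1 1) (el_mem A (-1) 1)) one_mem
    (by simp only [ev_el, map_mul, map_one, mul_one]))

theorem vv_pow (m : ℤ) : ((vv A ^ m : _ˣ) : HRing (stdEven T) P.E) ∈ deg P.E (4 * m) ∧
    A.ev ((vv A ^ m : _ˣ) : HRing (stdEven T) P.E) = 1 := by
  induction m using Int.induction_on with
  | zero => exact ⟨one_mem, map_one _⟩
  | succ n ih =>
    rw [zpow_add_one, Units.val_mul, map_mul, ih.2, one_mul]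
    exact ⟨mul_mem rfl ih.1 (el_mem A 1 1), ev_el A 1 1⟩
  | pred n ih =>
    rw [zpow_sub_one, Units.val_mul, map_mul, ih.2, one_mul]
    exact ⟨mul_mem (sub_eq_add_neg _ _).symm ih.1 (el_mem A (-1) 1), ev_el A (-1) 1⟩

theorem io_mem (m : ℤ) (r : A.R) : io A r * (vv A ^ m : _ˣ) ∈ deg P.E (4 * m) :=
  mul_mem (zero_add m) (el_mem A 0 r) (vv_pow A m).1

theorem ev_io (m : ℤ) (r : A.R) : A.ev (io A r * (vv A ^ m : _ˣ)) = r := by
  rw [map_mul, (vv_pow A m).2, mul_one]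
  exact ev_el A 0 r

theorem lau : Tate.Lau (deg P.E) (io A) A.ev (vv A) where
  ev_ι r := ev_el A 0 r
  ev_v := ev_el A 1 1
  mem m a := ⟨fun h => ⟨A.ev a, inj A h (io_mem A m _) (ev_io A m _).symm⟩,
    fun ⟨r, h⟩ => h ▸ io_mem A m r⟩
  sparse t a h ha := by
    unfold deg at ha
    rw [if_neg (by omega)] at ha
    exact AddSubgroup.mem_bot.1 ha
  span S h := by
    refine (AddSubgroup.eq_top_iff' S).2 fun a => ?_
    induction a using DirectSum.induction_on with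
    | zero => exact zero_mem _
    | of w u =>
      rcases Int.even_or_odd' w with ⟨m, rfl | rfl⟩
      · exact h _ ((mem_iff m _).2 ⟨u, rfl⟩)
      · rw [A.zero _ (odd_two_mul_add_one m) u, map_zero]
        exact zero_mem _
    | add a b ha hb => exact add_mem ha hb

theorem tra : Tate.Tra (io A) (vv A) (gA P) (Tate.twOf A.γ A.f) := fun m r => by
  obtain ⟨u, hu⟩ := (mem_iff m _).1 (io_mem A m r)
  have e : gA P (io A r * (vv A ^ m : _ˣ)) = HRing.of (stdEven T) P.E (2 * m) (u ≫ P.ρ) := by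
    rw [← hu]
    exact HRing.map_of P.ρ _ u
  rw [e]
  refine inj A ((mem_iff m _).2 ⟨_, rfl⟩) (io_mem A m _) ?_
  rw [A.ev_ρ, hu, ev_io, ev_io, neg_mul]

theorem sg_mem (n : ℕ) (m : ℤ) (e : (n : ℤ) = 2 * m) : sg P (n + 1) ∈ deg P.E (4 * m) := by
  obtain ⟨u, hu⟩ := sIso_hom D P.uE (P.uE ≫ P.ρ ≫ P.ρ ≫ P.ρ) n
  rw [mem_iff, ← e]
  exact ⟨u, hu.symm⟩

theorem hasTate (h : Tate.TATE) : HasTate P A :=
  Tate.core h (Tate.ofacts Tate.qrc) (Tate.inv (Tate.ofacts Tate.qrc) Tate.s9i) Tate.bra (lau A)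
    A.base A.res A.lt (tra A) (fun a => (map_cube P a).symm)
    (fun a => by
      have := DFunLike.congr_fun (map_inv P (P.ρ ≫ P.ρ ≫ P.ρ)
        ((P.ρ ≫ P.ρ ≫ P.ρ) ≫ (P.ρ ≫ P.ρ ≫ P.ρ)) P.ρ9) a
      rwa [HRing.map_comp] at this)
    (sg_mem 2 1 rfl) (sg_mem 8 4 rfl) (A.ser3 2) (A.ser3 8) (A.ser3 26)

end TTI

theorem stTT : StTT := fun h _ m => TTI.hasTate m.A h

end Vale.Agent.P236Z.Top
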