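import Vale.Agent.P236Z.E.Act
import Vale.Agent.P236Z.E.Cmp
import Vale.Agent.P236Z.E.Cpl
import Vale.Agent.P236Z.E.Ee
import Vale.Agent.P236Z.E.Et
import Vale.Agent.P236Z.E.Free
import Vale.Agent.P236Z.E.Fz
import Vale.Agent.P236Z.E.Gam
import Vale.Agent.P236Z.E.Gene
import Vale.Agent.P236Z.E.Grd
import Vale.Agent.P236Z.E.Int
import Vale.Agent.P236Z.E.Ltl
import Vale.Agent.P236Z.E.Ori
import Vale.Agent.P236Z.E.Plus
import Vale.Agent.P236Z.E.Qr
import Vale.Agent.P236Z.E.Rig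
import Vale.Agent.P236Z.E.Unq
import Vale.Agent.P236Z.E.Ym
import Vale.Agent.P251.X.KExists
import Vale.Agent.P236Z.Cat.Tower
import Vale.Agent.P236Z.Top.GeoAll
import Vale.Agent.P236Z.Mod.Fin
import Vale.Agent.P236Z.Tate.Fin
import Vale.Agent.P236Z.Top.TT
import Vale.Agent.P236Z.Force.All
import Vale.Agent.P236Z.SS.All
import Vale.Agent.P236Z.Q.Main
import Vale.Agent.P236Z.Top.Per
import Vale.Agent.P236Z.Top.DG
import Vale.Agent.P236Z.Cv.Fin
import Vale.Agent.P236Z.Cv.Sah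
import Vale.Agent.P236Z.Cv.Exp
import Vale.Agent.P236Z.Cv.Div

/-!
# P236: the assembly
-/

open CategoryTheory Vale.Agent.P251 Vale.Agent.P251.S Vale.Agent.P251.X

namespace Vale.Agent.P236Z.Top

open E in
theorem stE' : StE := by
  intro W e M b
  have := locallySmall_self.{0} W.T₀.C
  have : Fact (Nat.Prime 3) := ⟨by norm_num⟩
  have hU := M.muUniv b
  obtain ⟨a⟩ := act (gam ltl) fl (et2 (et1 rig)) cpx extn qrx qr0 e0x (cmp2 free qr0 qrx qrg cmp1)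
  obtain ⟨Dk⟩ := exists_kosData (M.data b).P ((3 : ℕ) : ℤ) 6 ((M.data b).vs 3)
  obtain ⟨K⟩ := exists_KD hU (p := 3) (by norm_num) (n := 6) (by norm_num)
  obtain ⟨O⟩ := ori _ W.F e hU
  obtain ⟨Y⟩ := ym _ E.unq (fz _) (int _) Dk a.B _ a.J a.β a.cmp
  obtain ⟨P⟩ := ee _ Dk O a Y
  obtain ⟨h1, h2⟩ := gene _ W.F e hU Dk K P.E P.q
  obtain ⟨Q⟩ := E.grd _ Dk O a K P (h1 P.loc) (h2 P.gens)
  exact plus a K Q

theorem fin : FIN :=
  fin_of Cat.stTower Cat.stGeo stE' Mod.modx Tate.tate stTT Force.force SS.stRows Q.stQ stPer stDG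

theorem fin2 : Cv.FIN2 :=
  Cv.fin2_of fin Cv.sahn (fun T => have := locallySmall_self.{0} T.C; Cv.exp T.C)
    fun T => have := locallySmall_self.{0} T.C; Cv.divi T.C

end Vale.Agent.P236Z.Top
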