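import Vale.Agent.P236Z.Top.Geo
import Vale.Agent.P236Z.Cat.Proj
import Vale.Agent.P236Z.Cat.Wir
import Vale.Agent.P251.S.TensorShift

/-!
# P236, detection in the tower: double suspensions, free cells, comparison of the two spheres
-/

open CategoryTheory MonoidalCategory Limits Pretriangulated
open Functor.LaxMonoidal Functor.OplaxMonoidal
open Vale.Agent.P251 Vale.Agent.P251.T Vale.Agent.P251.S Vale.Agent.P251.H Vale.Agent.P251.I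
  Vale.Agent.P236Z.Cat

set_option linter.unusedSectionVars false

noncomputable section

namespace Vale.Agent.P236Z.Top.DG

section c2

variable {C D E : Type 1} [Category.{0} C] [Category.{0} D] [Category.{0} E] [HasShift C ℤ]
  [HasShift D ℤ] [HasShift E ℤ] (F : C ⥤ D) [F.CommShift ℤ]

/-- the commutation with the double suspension -/
def c2 (Y : C) : F.obj ((Y⟦(1 : ℤ)⟧)⟦(1 : ℤ)⟧) ≅ ((F.obj Y)⟦(1 : ℤ)⟧)⟦(1 : ℤ)⟧ :=
  (F.commShiftIso (1 : ℤ)).app (Y⟦(1 : ℤ)⟧) ≪≫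
    (shiftFunctor D (1 : ℤ)).mapIso ((F.commShiftIso (1 : ℤ)).app Y)

theorem c2_hom (Y : C) : (c2 F Y).hom = (F.commShiftIso (1 : ℤ)).hom.app (Y⟦(1 : ℤ)⟧) ≫
    ((F.commShiftIso (1 : ℤ)).hom.app Y)⟦(1 : ℤ)⟧' := rfl

theorem c2_inv (Y : C) : (c2 F Y).inv = ((F.commShiftIso (1 : ℤ)).inv.app Y)⟦(1 : ℤ)⟧' ≫
    (F.commShiftIso (1 : ℤ)).inv.app (Y⟦(1 : ℤ)⟧) := rfl

@[reassoc]
theorem c2_nat {X Y : C} (f : X ⟶ Y) : F.map ((f⟦(1 : ℤ)⟧')⟦(1 : ℤ)⟧') ≫ (c2 F Y).hom =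
    (c2 F X).hom ≫ ((F.map f)⟦(1 : ℤ)⟧')⟦(1 : ℤ)⟧' := by
  rw [c2_hom, c2_hom, F.commShiftIso_hom_naturality_assoc, ← Functor.map_comp,
    F.commShiftIso_hom_naturality, Functor.map_comp, Category.assoc]

@[reassoc]
theorem c2_nat' {X Y : C} (f : X ⟶ Y) : ((F.map f)⟦(1 : ℤ)⟧')⟦(1 : ℤ)⟧' ≫ (c2 F Y).inv =
    (c2 F X).inv ≫ F.map ((f⟦(1 : ℤ)⟧')⟦(1 : ℤ)⟧') := by
  rw [Iso.comp_inv_eq, Category.assoc, c2_nat, Iso.inv_hom_id_assoc]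

theorem c2_tr {G : C ⥤ D} [G.CommShift ℤ] (τ : F ⟶ G) [NatTrans.CommShift τ ℤ] (Y : C) :
    (c2 F Y).hom ≫ ((τ.app Y)⟦(1 : ℤ)⟧')⟦(1 : ℤ)⟧' = τ.app _ ≫ (c2 G Y).hom := by
  rw [c2_hom, c2_hom, Category.assoc, ← Functor.map_comp, NatTrans.shift_app_comm,
    Functor.map_comp, NatTrans.shift_app_comm_assoc]

theorem c2_comp (G : D ⥤ E) [G.CommShift ℤ] (Y : C) :
    (c2 (F ⋙ G) Y).hom = G.map (c2 F Y).hom ≫ (c2 G (F.obj Y)).hom := by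
  rw [c2_hom, c2_hom, c2_hom, Functor.commShiftIso_comp_hom_app, Functor.commShiftIso_comp_hom_app,
    G.map_comp, Category.assoc, Category.assoc, Functor.map_comp]
  exact congrArg (_ ≫ ·)
    (G.commShiftIso_hom_naturality_assoc ((F.commShiftIso (1 : ℤ)).hom.app Y) 1 _).symm

end c2

section mu

variable {T T' : TTC} (U : ExF T' T) (S : T'.C)

/-- the tensor structure as a natural transformation -/
def muT : U.F ⋙ tensorLeft (U.F.obj S) ⟶ tensorLeft S ⋙ U.F where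
  app Y := μ U.F S Y
  naturality _ _ f := μ_natural_right U.F S f

instance : NatTrans.CommShift (muT U S) ℤ := by
  refine natTrans_commShift_of_one _ fun Y => ?_
  rw [Functor.commShiftIso_comp_hom_app, Functor.commShiftIso_comp_hom_app,
    tensorLeft_commShiftIso_one_app, tensorLeft_commShiftIso_one_app]
  have h1 := U.e_eq Y
  have h2 := U.e_eq (S ⊗ Y)
  generalize (U.F.commShiftIso (1 : ℤ)).hom.app (𝟙_ T'.C) ≫ (η U.F)⟦(1 : ℤ)⟧' = ψ at h1 h2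
  change (U.F.obj S ◁ (U.F.commShiftIso (1 : ℤ)).hom.app Y ≫ _) ≫ (μ U.F S Y)⟦(1 : ℤ)⟧' =
    μ U.F S (Y⟦(1 : ℤ)⟧) ≫ U.F.map _ ≫ (U.F.commShiftIso (1 : ℤ)).hom.app (S ⊗ Y)
  rw [← cancel_epi (U.F.obj S ◁ (μ U.F Y ((𝟙_ T'.C)⟦(1 : ℤ)⟧) ≫
    U.F.map (TensorTriangulated.e Y).hom))]
  simp only [Category.assoc]
  rw [← MonoidalCategory.whiskerLeft_comp_assoc, Category.assoc, h1,
    ← MonoidalCategory.whiskerLeft_comp_assoc, Category.assoc, Iso.hom_inv_id, Category.comp_id,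
    ← TensorTriangulated.e_naturality, MonoidalCategory.whiskerLeft_comp, Category.assoc,
    μ_natural_right_assoc, ← U.F.map_comp_assoc, ← MonoidalCategory.whiskerLeft_comp_assoc,
    Iso.hom_inv_id, MonoidalCategory.whiskerLeft_id, Category.id_comp, U.F.map_comp, Category.assoc,
    Functor.LaxMonoidal.associativity_inv_assoc, h2, associator_inv_naturality_right_assoc,
    whisker_exchange_assoc]
  rfl

/-- the tensor structure commutes with the double suspension -/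
theorem mu_c2 (Y : T'.C) : ((μ U.F S Y)⟦(1 : ℤ)⟧')⟦(1 : ℤ)⟧' ≫ (c2 U.F (S ⊗ Y)).inv ≫
    U.F.map (c2 (tensorLeft S) Y).inv = (c2 (tensorLeft (U.F.obj S)) (U.F.obj Y)).inv ≫
      U.F.obj S ◁ (c2 U.F Y).inv ≫ μ U.F S _ := by
  have h := c2_tr _ (muT U S) Y
  rw [c2_comp, c2_comp] at h
  change (U.F.obj S ◁ (c2 U.F Y).hom ≫ (c2 (tensorLeft (U.F.obj S)) (U.F.obj Y)).hom) ≫
    ((μ U.F S Y)⟦(1 : ℤ)⟧')⟦(1 : ℤ)⟧' =
      μ U.F S _ ≫ U.F.map (c2 (tensorLeft S) Y).hom ≫ (c2 U.F (S ⊗ Y)).hom at h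
  rw [Iso.eq_inv_comp, ← cancel_epi (U.F.obj S ◁ (c2 U.F Y).hom), ← Category.assoc,
    ← Category.assoc, ← Category.assoc, h]
  simp only [Category.assoc, ← U.F.map_comp, Iso.hom_inv_id,
    CategoryTheory.Functor.map_id, Category.comp_id, whiskerLeft_hom_inv_assoc]

end mu

section step

variable {T₀ : TTC} {F : SpaceFunctor T₀.C} {T T' : TTC} {K : Type 1} [Category.{0} K]
  [MonoidalCategory K] [SymmetricCategory K] {tK : Tw K} {u : K ⥤ FCat} {v : FCat ⥤ K}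
  [v.Braided] {hv : ∀ X, (tK.h (v.obj X)).hom = 𝟙 _} {L : Lvl T₀ F T tK u v}
  {L' : Lvl T₀ F T' (Rt.tw tK) (Rt.U tK ⋙ u) (Rt.triv v hv)} (s : Step L L')

theorem bij (A : T'.C) (Y : T.C) (B : T'.C) : Function.Bijective
    fun f : A ⊗ s.ind.obj Y ⟶ B => s.U.F.obj A ◁ s.pun Y ≫ μ s.U.F _ _ ≫ s.U.F.map f := by
  refine Eq.subst (funext fun f => ?_) (((asIso (s.projMap A Y)).symm.homCongr (Iso.refl B)).trans
    (s.adj.homEquiv _ _)).bijective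
  change s.adj.homEquiv _ _ (s.projMap A Y ≫ f ≫ 𝟙 B) = _
  rw [s.homEquiv_pun, Category.comp_id, Functor.map_comp, s.pun_projMap_assoc]

variable {A A' B B' : T'.C} {Y : T.C} (e : A' ⊗ s.ind.obj Y ≅ A) (q : B ⟶ B')

include e in
theorem inj [Mono (s.U.F.map q)] {f g : A ⟶ B} (h : f ≫ q = g ≫ q) : f = g := by
  rw [← cancel_epi e.hom]
  apply (bij s _ _ _).1
  dsimp only
  rw [← cancel_mono (s.U.F.map q)]
  simp only [Category.assoc, ← s.U.F.map_comp, h]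

include e in
theorem surj (k : s.U.F.obj B' ⟶ s.U.F.obj B) (hk : k ≫ s.U.F.map q = 𝟙 _) (g : A ⟶ B') :
    ∃ f : A ⟶ B, f ≫ q = g := by
  obtain ⟨f, hf⟩ := (bij s A' Y B).2
    ((s.U.F.obj A' ◁ s.pun Y ≫ μ s.U.F _ _ ≫ s.U.F.map (e.hom ≫ g)) ≫ k)
  refine ⟨e.inv ≫ f, ?_⟩
  rw [Category.assoc, Iso.inv_comp_eq]
  apply (bij s _ _ _).1
  dsimp only at hf ⊢
  rw [s.U.F.map_comp, reassoc_of% hf, hk, Category.comp_id]

theorem pun_oe : s.pun _ ≫ s.U.F.map s.oe = ε s.U.F := by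
  rw [← s.homEquiv_pun, Step.oe, Equiv.apply_symm_apply]

theorem flat2_eq {A : T.C} {B : T'.C} (r : ((s.ind.obj A)⟦(1 : ℤ)⟧)⟦(1 : ℤ)⟧ ⟶ B) :
    s.flat2 r = ((s.pun A)⟦(1 : ℤ)⟧')⟦(1 : ℤ)⟧' ≫ (c2 s.U.F _).inv ≫ s.U.F.map r := by
  rw [Step.flat2, c2_inv, Functor.map_comp, Category.assoc, Category.assoc]
  rfl

theorem h_cube : (L'.t.h s.O).hom ≫ (L'.t.h s.O).hom ≫ (L'.t.h s.O).hom = 𝟙 _ := by
  apply s.ind_ext
  rw [s.cube_h, L.t.nat, L.t.one, CategoryTheory.Functor.map_id, Category.id_comp, Category.comp_id]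

theorem mono_top {r : (s.O⟦(1 : ℤ)⟧)⟦(1 : ℤ)⟧ ⟶ B} [IsIso (s.flat2 r)]
    {d : B ⟶ (s.O⟦(1 : ℤ)⟧)⟦(1 : ℤ)⟧} (h : r ≫ d =
      ((∑ i ∈ Finset.range 3, Dt.pw (L'.t.h s.O).hom i)⟦(1 : ℤ)⟧')⟦(1 : ℤ)⟧') :
    Mono (s.U.F.map d) := by
  have h1 : s.pun _ ≫ s.U.F.map (∑ i ∈ Finset.range 3, Dt.pw (L'.t.h s.O).hom i) ≫ s.pr _ = 𝟙 _ := by
    have h2 : s.pun (𝟙_ T.C) = s.un _ := rfl
    simp [Finset.sum_range_succ, Dt.pw, h2]
  have h2 : s.flat2 r ≫ s.U.F.map d ≫ (c2 s.U.F _).hom ≫ ((s.pr _)⟦(1 : ℤ)⟧')⟦(1 : ℤ)⟧' = 𝟙 _ := by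
    rw [flat2_eq, Category.assoc, Category.assoc, ← s.U.F.map_comp_assoc, h, c2_nat_assoc,
      Iso.inv_hom_id_assoc, ← Functor.map_comp, ← Functor.map_comp, ← Functor.map_comp,
      ← Functor.map_comp, h1, CategoryTheory.Functor.map_id, CategoryTheory.Functor.map_id]
  have h3 : s.U.F.map d ≫ ((c2 s.U.F _).hom ≫ ((s.pr _)⟦(1 : ℤ)⟧')⟦(1 : ℤ)⟧') ≫ s.flat2 r = 𝟙 _ := by
    rw [← cancel_epi (s.flat2 r), Category.assoc, reassoc_of% h2, Category.comp_id]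
  exact mono_of_mono_fac h3

end step

theorem pw_comm {C : Type 1} [Category.{0} C] {X Y : C} {g : X ⟶ X} {g' : Y ⟶ Y} {f : X ⟶ Y}
    (h : f ≫ g' = g ≫ f) (n : ℕ) : f ≫ Dt.pw g' n = Dt.pw g n ≫ f := by
  induction n with
  | zero => simp [Dt.pw]
  | succ n ih => rw [Dt.pw, Dt.pw, reassoc_of% h, ih, Category.assoc]

/-- The map from the faithful sphere to the sphere with kernel of order three has degree three. -/
theorem exists_c (W : Tower) {r : (W.G⟦(1 : ℤ)⟧)⟦(1 : ℤ)⟧ ⟶ W.L}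
    (h9 : IsRep (W.L₂.t.h W.G).hom (W.gq ≫ W.s₂.oe) W.a 9 r)
    {r' : (W.s₂.O⟦(1 : ℤ)⟧)⟦(1 : ℤ)⟧ ⟶ W.s₂.Lr}
    (h3 : IsRep (W.L₂.t.h W.s₂.O).hom W.s₂.oe W.s₂.ar 3 r') [IsIso (W.s₂.flat2 r')] :
    ∃ c : W.L ⟶ W.s₂.Lr, W.a ≫ c = W.s₂.ar ∧
      r ≫ c = (3 : ℤ) • ((W.gq⟦(1 : ℤ)⟧')⟦(1 : ℤ)⟧' ≫ r') := by
  obtain ⟨P, e₀, e₁, p, b, d1, d2, h1, h2⟩ := h9
  obtain ⟨P', e₀', e₁', p', b', d1', d2', h1', h2'⟩ := h3
  obtain ⟨φ, k1, k2⟩ := d1.map₃ d1' W.gq W.gq (by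
    rw [Preadditive.sub_comp, Preadditive.comp_sub, W.L₂.t.nat, Category.id_comp, Category.comp_id])
  obtain ⟨ψ, k3⟩ := d1.desc₃ (φ ≫ p' - p) (by
    rw [Preadditive.comp_sub, reassoc_of% k1, h1, h1', sub_self])
  obtain ⟨χ, rfl⟩ := surj W.s₂ (sphTensor 1 W.G) W.s₂.oe (η W.s₂.U.F ≫ W.s₂.pun _)
    (by rw [Category.assoc, pun_oe, Functor.Monoidal.η_ε]) ψ
  obtain ⟨c, k4, k5⟩ := d2.map₃ d2' (φ - e₁ ≫ χ ≫ e₀') (𝟙 _) (by
    rw [Preadditive.sub_comp, Category.assoc, Category.assoc, h1', k3, Category.comp_id,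
      sub_sub_cancel])
  refine ⟨c, k4.trans (Category.id_comp _), ?_⟩
  have := mono_top W.s₂ h2'
  refine inj W.s₂ (c2 (tensorRight W.G) (𝟙_ _) ≪≫ (shiftFunctor _ (1 : ℤ)).mapIso
    ((shiftFunctor _ (1 : ℤ)).mapIso (λ_ W.G))) (b' ≫ e₁'⟦(1 : ℤ)⟧') ?_
  have k6 := h_cube W.s₂
  rw [Category.assoc, ← reassoc_of% k5, ← Functor.map_comp, Preadditive.sub_comp, Category.assoc,
    Category.assoc, d1'.zero₂₃, comp_zero, comp_zero, sub_zero, ← k2, Functor.map_comp,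
    reassoc_of% h2, Preadditive.zsmul_comp, Category.assoc, h2', ← Functor.map_comp,
    ← Functor.map_comp, ← Functor.map_comp, ← Functor.map_comp, ← Functor.map_zsmul,
    ← Functor.map_zsmul, Preadditive.sum_comp, ← Preadditive.comp_zsmul,
    Finset.sum_congr rfl fun i _ => (pw_comm (W.L₂.t.nat W.gq) i).symm, ← Preadditive.comp_sum]
  congr 3
  simp only [Finset.sum_range_succ, Finset.range_zero, Finset.sum_empty, Dt.pw, Category.comp_id,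
    k6]
  abel

end Vale.Agent.P236Z.Top.DG
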