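import Vale.Agent.P236Z.Top.DG1
import Vale.Agent.P236Z.Top.Unit
import Vale.Agent.P236Z.Det.T1Eq
import Vale.Agent.P251.M.CobDec

/-!
# P236, detection in the tower: the algebra of the fixed point
-/

open CategoryTheory MonoidalCategory Limits Pretriangulated
open Vale.Agent.P251 Vale.Agent.P251.T Vale.Agent.P251.M Vale.Agent.P251.S Vale.Agent.P251.F
  Vale.Agent.P251.I Vale.Agent.P251.X Vale.Agent.P251.H Vale.Agent.P236Z.Mod Vale.Agent.P236Z.Dt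
  IsLocalRing

set_option linter.unusedSectionVars false

noncomputable section

namespace Vale.Agent.P236Z.Top.DG

variable {T : Type 1} [Category.{0} T] [Preadditive T] [HasZeroObject T]
    [HasShift T ℤ] [∀ n : ℤ, (shiftFunctor T n).Additive] [Pretriangulated T] [IsTriangulated T]
    [MonoidalCategory T] [SymmetricCategory T] [TensorTriangulated T] [MonoidalClosed T]
    [HasCoproducts.{0} T] [HasProducts.{0} T] [StableCat T] {D : MUData T} {P : EDat D} (A : Alg P)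

/-- the value at the fixed point -/
def val (w : ℤ) : ((stdEven T).S w ⟶ P.E) →+ A.B :=
  (A.lam.comp A.ev).toAddMonoidHom.comp (DirectSum.of ((stdEven T).Gr P.E) w)

theorem val_apply (w : ℤ) (a : (stdEven T).S w ⟶ P.E) :
    val A w a = A.lam (A.ev (HRing.of _ P.E w a)) := rfl

theorem val_ρ {w : ℤ} (hw : 9 ∣ w) (a : (stdEven T).S w ⟶ P.E) :
    val A w (a ≫ P.ρ) = val A w a := by
  obtain ⟨k, rfl⟩ := hw
  have h : Units.map (A.lam : A.R →* A.B) ((Tate.twOf A.γ A.f).t ^ (9 : ℤ)) = 1 :=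
    Units.ext (Eq.trans (by simp [zpow_ofNat]) A.lam_t)
  have h1 : A.lam (((Tate.twOf A.γ A.f).t ^ (-(9 * k)) : A.Rˣ) : A.R) = 1 := by
    change ((Units.map (A.lam : A.R →* A.B) _ : A.Bˣ) : A.B) = 1
    rw [← mul_neg, zpow_mul, map_zpow, h, one_zpow, Units.val_one]
  rw [val_apply, val_apply, A.ev_ρ, Tate.Tw.act, map_mul, h1, mul_one]
  exact A.lam_γ _

theorem lift_eq {N : T} [MonObj N] [IsCommMonObj N] (a b : D.R ⟶ N) [IsMonHom a] [IsMonHom b] :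
    Am.lift ![a, b] = Mod.pair a b := Am.hom_ext fun i => by
  rw [Am.v_lift]
  fin_cases i
  · have h : Am.v D.R (0 : Fin 2) = Am.v D.R (0 : Fin 1) ≫ inlM (Am D.R 1) D.R :=
      Am.v_castSucc D.R (0 : Fin 1)
    change a = Am.v D.R (0 : Fin 2) ≫ _
    rw [h, Mod.pair, Category.assoc, inlM_descM, ← Category.assoc, v_amOne, Category.id_comp]
  · have h : Am.v D.R (1 : Fin 2) = inrM (Am D.R 1) D.R := Am.v_last D.R 1
    change b = Am.v D.R (1 : Fin 2) ≫ _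
    rw [h, Mod.pair, inrM_descM]

theorem dvd {t1 : Cob Laz 1} (ht : IsT1 3 t1) {w : ℤ} (h : Cob.wt Laz 1 w) (c : ℤ) (n : ℕ)
    (hI : h.1 - c * t1 ^ n ∈ Det.II 1)
    (hm : val A w (e2 D h P.uE (P.uE ≫ P.ρ)) ∈ maximalIdeal A.B) : (3 : ℤ) ∣ c := by
  refine dvd_of_ringHom D P.uE (P.uE ≫ P.ρ) (maximalIdeal A.B) (A.lam.comp A.ev) (fun k hk => ?_)
    ?_ h c n hI hm
  · have h1 : D.ev 1 (MvPolynomial.C (Laz.v 3 k)) =
        vv 3 k (D.law.map (HRing.map (Am.v D.R (0 : Fin 2)))) := by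
      rw [D.law_map_v (n := 1) 0, (Cob.univ Laz 1).zero, map_one, one_smul, vv_map]
      rfl
    rw [h1, ← vv_map, Law.map_map, ← HRing.map_comp, HRing_map_congr (Am.v_lift _ 0)]
    have h2 : A.ev (vv 3 k (lawOf P.uE)) ∈ maximalIdeal A.R := by
      rw [← vv_map, A.law, ← A.lt.gen]
      exact vF_mem 3 _ (by omega)
    exact map_nonunit A.lam _ h2
  · obtain ⟨q, rfl⟩ := Det.t1_eq ht
    have h1 : ∀ k, A.ev (HRing.map (Am.lift ![P.uE, P.uE ≫ P.ρ]) (D.ev 1 (MvPolynomial.X (0, k)))) =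
        Tate.sc A.f (k + 2) := fun k => by
      rw [← A.ser, HRing_map_congr (lift_eq _ _), sIso, InvSeries.c_map, MUData.strictIso,
        InvSeries.c_map]
      exact congrArg _ (congrArg _ (congrArg _ (c_succ_strictMk (fun l => MvPolynomial.X ((0 : Fin 1), l)) k).symm))
    have h2 : A.ev (HRing.map (Am.lift ![P.uE, P.uE ≫ P.ρ]) (D.ev 1 (MvPolynomial.X (0, 0)))) = 0 := by
      obtain ⟨a, ha⟩ := D.ev_wt 1 _ _ (Cob.isWt_X (N := Laz) (0 : Fin 1) 0)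
      rw [ha, HRing.map_of, A.zero _ (by decide) (a ≫ _), HRing.of, map_zero, map_zero]
    have h3 : IsUnit (8 : A.R) := by
      have h4 := isUnit_one_sub_self_of_mem_nonunits _ (Ideal.mul_mem_left _ 3 A.base.three)
      rwa [show (1 : A.R) - 3 * 3 = -8 by norm_num, IsUnit.neg_iff] at h4
    rw [RingHom.comp_apply, map_add, map_add, map_add, map_mul, map_mul, map_mul, map_mul, map_mul,
      map_mul, h1, h2, zero_mul, add_zero, map_ofNat, map_ofNat, map_ofNat]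
    exact fun h5 => h5 ((h3.mul ((Units.isUnit _).mul A.lt.unit)).map A.lam)

variable {w w' : ℤ} (hw : w + 1 = w')

include A hw in
theorem odd1 (f : (stdEven T).S w' ⟶ (𝟙_ T ⊗ P.E)⟦(1 : ℤ)⟧) : f = 0 := by
  obtain ⟨g, hg⟩ := (shiftFunctor T (1 : ℤ)).map_surjective ((eS hw).inv ≫ f)
  have h : g = 0 := by
    rw [← cancel_epi (eO w).inv, ← cancel_mono (λ_ P.E).hom, A.odd w (_ ≫ _), comp_zero, zero_comp]
  rw [← cancel_epi (eS hw).inv, ← hg, h, Functor.map_zero, comp_zero]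

include A hw in
theorem odd2 (ho : Odd w) (f : (stdEven T).S w' ⟶ ((𝟙_ T ⊗ P.E)⟦(1 : ℤ)⟧)⟦(1 : ℤ)⟧) : f = 0 := by
  obtain ⟨g, hg⟩ := (shiftFunctor T (1 : ℤ)).map_surjective ((eS hw).inv ≫ f)
  obtain ⟨g, rfl⟩ := (shiftFunctor T (1 : ℤ)).map_surjective g
  have h : g = 0 := by
    rw [← cancel_mono (λ_ P.E).hom, A.zero w ho (_ ≫ _), zero_comp]
  rw [← cancel_epi (eS hw).inv, ← hg, h, Functor.map_zero, Functor.map_zero, comp_zero]

variable {b : ℕ} {M : T} {i : 𝟙_ T ⟶ M} {δ : M ⟶ (𝟙_ T)⟦(1 : ℤ)⟧}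
  (hM : Dist ((3 : ℤ) ^ b • 𝟙 (𝟙_ T)) i δ)

include hM in
theorem distE (E : T) : Dist (((3 : ℤ) ^ b • 𝟙 (𝟙_ T)) ▷ E) (red i (𝟙_ T) ▷ E)
    (bdC δ (𝟙_ T) ▷ E ≫ ((tensorRight E).commShiftIso (1 : ℤ)).hom.app (𝟙_ T)) :=
  dist_whiskerRight E (dist_red hM (𝟙_ T))

include A hw hM in
theorem odd3 (ho : Odd w) (f : (stdEven T).S w' ⟶ (𝟙_ T ⊗ M)⟦(1 : ℤ)⟧ ⊗ P.E) : f = 0 := by
  have h := distE hM P.E
  obtain ⟨g, hg⟩ := h.rot.rot.rot.lift₃
    (f ≫ ((tensorRight P.E).commShiftIso (1 : ℤ)).hom.app _) (odd2 A hw ho _)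
  rw [odd1 A hw g, zero_comp] at hg
  rw [← cancel_mono (((tensorRight P.E).commShiftIso (1 : ℤ)).hom.app _), ← hg, zero_comp]

include hw hM in
/-- the value with Moore coefficients -/
theorem exists_val (hb : 3 ≤ b) (h9 : 9 ∣ w') :
    ∃ Λ : ((stdEven T).S w' ⟶ (𝟙_ T ⊗ M) ⊗ P.E) →+ A.B,
      (∀ a, Λ (a ≫ (λ_ P.E).inv ≫ red i (𝟙_ T) ▷ P.E) = val A w' a) ∧
        ∀ f, Λ (f ≫ _ ◁ P.ρ) = Λ f := by
  have h := distE hM P.E
  let q : ((stdEven T).S w' ⟶ P.E) →+ _ :=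
    Preadditive.rightComp _ ((λ_ P.E).inv ≫ red i (𝟙_ T) ▷ P.E)
  have hq : Function.Surjective q := fun f => by
    obtain ⟨g, rfl⟩ := h.lift₃ f (odd1 A hw _)
    exact ⟨g ≫ (λ_ _).hom, by simp [q, Preadditive.rightComp]⟩
  have hk : q.ker ≤ (val A w').ker := fun a ha => by
    obtain ⟨g, hg⟩ := h.lift₂ (a ≫ (λ_ _).inv) ((Category.assoc _ _ _).trans ha)
    have h1 : ((3 : ℤ) ^ b • 𝟙 (𝟙_ T)) ▷ P.E = (3 : ℤ) ^ b • 𝟙 _ :=
      ((tensorRight P.E).map_zsmul ..).trans (congrArg _ (id_whiskerRight _ _))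
    rw [h1, Preadditive.comp_zsmul, Category.comp_id, Iso.eq_comp_inv, Preadditive.zsmul_comp] at hg
    obtain ⟨c, rfl⟩ := Nat.exists_eq_add_of_le hb
    rw [AddMonoidHom.mem_ker, ← hg, map_zsmul, zsmul_eq_mul]
    push_cast
    linear_combination (3 ^ c * val A w' (g ≫ (λ_ P.E).hom)) * A.h27
  have key : ∀ a, q.liftOfSurjective hq ⟨_, hk⟩ (q a) = val A w' a := fun a =>
    q.liftOfRightInverse_comp_apply _ _ _ a
  refine ⟨_, key, fun f => ?_⟩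
  obtain ⟨a, rfl⟩ := hq f
  rw [key, ← val_ρ A h9, ← key]
  congr 1
  change (a ≫ _ ≫ _) ≫ _ = (a ≫ _) ≫ _ ≫ _
  rw [Category.assoc, Category.assoc, Category.assoc, ← whisker_exchange,
    leftUnitor_inv_naturality_assoc P.ρ]

end Vale.Agent.P236Z.Top.DG
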