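import Vale.Agent.P251.St.Base

/-!
# P236, statement layer: the mod `p` Adams tower of the sphere spectrum

This file contains the definitions which enter the final statement (besides `P251/T/Axioms` and
`P251/St/Base`).
-/

open CategoryTheory MonoidalCategory

namespace Vale.Agent.P236Z.St

open Vale.Agent.P251.St Vale.Agent.P251.St.SHCat

variable {T : SHCat}

/-- the sphere of dimension `k` -/
abbrev sph (T : SHCat) (k : ℤ) : T.C := T.one⟦k⟧

/-- `e : S ⟶ H` is the unit of the mod `p` Eilenberg-Mac Lane spectrum: `π_k H = 0` for `k ≠ 0` and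
`π_0 H` is cyclic of order `p`, generated by `e`. -/
structure IsHF (p : ℕ) {H : T.C} (e : Hom T.one H) : Prop where
  conc : ∀ k : ℤ, k ≠ 0 → ∀ g : Hom (sph T k) H, g = 0
  gen : ∀ g : Hom T.one H, ∃ m : ℤ, g = m • e
  ord : ∀ m : ℤ, m • e = 0 ↔ (p : ℤ) ∣ m

/-- the Hurewicz map `X = S ∧ X ⟶ H ∧ X` -/
abbrev hur {H : T.C} (e : Hom T.one H) (X : T.C) : Hom X (ten H X) :=
  comp (λ_ X).inv (tenHom e (ident X))

/-- The Adams tower `⋯ ⟶ X 2 ⟶ X 1 ⟶ X 0 = S` of the sphere: `X (s + 1)` is the fibre of the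
Hurewicz map `X s ⟶ H ∧ X s`. -/
structure AdamsTower {H : T.C} (e : Hom T.one H) where
  /-- the stages -/
  X : ℕ → T.C
  /-- the identification of the bottom stage with the sphere -/
  base : X 0 ≅ T.one
  /-- the maps of the tower -/
  g : ∀ s, Hom (X (s + 1)) (X s)
  /-- the connecting maps -/
  d : ∀ s, Hom (ten H (X s)) (sus (X (s + 1)))
  dist : ∀ s, Dist (g s) (hur e (X s)) (d s)

namespace AdamsTower

variable {H : T.C} {e : Hom T.one H} (A : AdamsTower e)

/-- the composite `X (s + r) ⟶ ⋯ ⟶ X s` -/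
def down (s : ℕ) : ∀ r : ℕ, Hom (A.X (s + r)) (A.X s)
  | 0 => ident (A.X s)
  | r + 1 => comp (A.g (s + r)) (down s r)

/-- the composite `X s ⟶ ⋯ ⟶ X 0 = S` -/
def toSphere : ∀ s : ℕ, Hom (A.X s) T.one
  | 0 => A.base.hom
  | s + 1 => comp (A.g s) (toSphere s)

/-- `θ ∈ π_n S` has Adams filtration at least `s`: it lifts to `X s`. -/
def FiltGe (s : ℕ) {n : ℤ} (θ : Hom (sph T n) T.one) : Prop :=
  ∃ w : Hom (sph T n) (A.X s), comp w (A.toSphere s) = θ

/-- `x ∈ E_1^{s, n + s} = π_n (H ∧ X s)` is a permanent cycle: for every `r` its image in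
`π_{n-1} X (s + 1)` lifts to `π_{n-1} X (s + 1 + r)`, that is, all differentials vanish on `x`. -/
def IsPermCycle (s : ℕ) {n : ℤ} (x : Hom (sph T n) (ten H (A.X s))) : Prop :=
  ∀ r : ℕ, ∃ z : Hom (sph T n) (sus (A.X (s + 1 + r))),
    comp z ((A.down (s + 1) r)⟦(1 : ℤ)⟧') = comp x (A.d s)

/-- `x ∈ E_1^{s, n + s} = π_n (H ∧ X s)` is hit by a differential (it is zero in `E_∞`): it is the
Hurewicz image of an element of the kernel of `π_n X s ⟶ π_n S`. -/
def IsBoundary (s : ℕ) {n : ℤ} (x : Hom (sph T n) (ten H (A.X s))) : Prop :=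
  ∃ y : Hom (sph T n) (A.X s), comp y (A.toSphere s) = 0 ∧ comp y (hur e (A.X s)) = x

end AdamsTower

end Vale.Agent.P236Z.St
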