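import Vale.Agent.P236Z.Top.Mdl
import Vale.Agent.P236Z.Top.St
import Vale.Agent.P236Z.Tr.Main
import Vale.Agent.P251.M.BGlueD
import Vale.Agent.P251.M.LineIso
import Vale.Agent.P251.St.Result

/-!
# P236: the final statement from the blocks
-/

open CategoryTheory MonoidalCategory Limits Pretriangulated
open Vale.Agent.P251 Vale.Agent.P251.M Vale.Agent.P251.St Vale.Agent.P251.St.SHCat
  Vale.Agent.P236Z.St Vale.Agent.P236Z.Cat Vale.Agent.P236Z.Mod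

namespace Vale.Agent.P236Z.Top

section conv

variable {T : SHCat} {H : T.C} {e : Hom T.one H}

theorem isHF_iff (p : ℕ) : IsHF p e ↔ Tr.IsHF p e :=
  ⟨fun h => ⟨h.conc, h.gen, h.ord⟩, fun h => ⟨h.conc, h.gen, h.ord⟩⟩

theorem hur_eq (X : T.C) : hur e X = Tr.hur e X := by
  rw [Tr.hur, ← tensorHom_id]

theorem tower_dist (A : AdamsTower e) (s : ℕ) : P251.H.Dist (A.g s) (Tr.hur e (A.X s)) (A.d s) := by
  rw [← hur_eq]
  exact A.dist s

/-- There is an Adams tower. -/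
theorem nonempty_tower (e : Hom T.one H) : Nonempty (AdamsTower e) := by
  choose Y g d hd using fun X : T.C => P251.H.exists_fibre (hur e X)
  let X : ℕ → T.C := fun s => Nat.rec T.one (fun _ X => Y X) s
  exact ⟨⟨X, Iso.refl _, fun s => g (X s), fun s => d (X s), fun s => hd (X s)⟩⟩

theorem filtGe_three (A : AdamsTower e) {n : ℤ} {θ : Hom (sph T n) T.one} (h : Tr.AF e 3 θ) :
    A.FiltGe 3 θ := by
  obtain ⟨w, hw⟩ := Tr.AF.lift_three (tower_dist A 0) (tower_dist A 1) (tower_dist A 2)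
    (h.post A.base.inv)
  refine ⟨w, ?_⟩
  change w ≫ A.g 2 ≫ A.g 1 ≫ A.g 0 ≫ A.base.hom = θ
  rw [reassoc_of% hw, Iso.inv_hom_id, Category.comp_id]

end conv

/-- All elements of the critical stems have Adams filtration at least three. -/
def AF3 : Prop := ∀ (T : SHCat) (_ : Susp T) (H : T.C) (e : Hom T.one H), Tr.IsHF 3 e →
  ∀ j : ℕ, 4 ≤ j → ∀ θ : Hom (sph T (4 * 3 ^ (j + 1) - 2)) T.one, Tr.AF e 3 θ

theorem af3_of (hT : StTower) (hG : StGeo) (hE : StE) (hX : MODX) (hTate : Tate.TATE)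
    (hTT : StTT) (hF : Force.FORCE) (hR : StRows) (hQ : StQ) (hP : StPer) (hD : StDG) : AF3 := by
  intro T S H e he j hj θ
  obtain ⟨W⟩ := hT
  have := locallySmall_self.{0} W.T₀.C
  obtain ⟨M⟩ := nonempty_MUMon W.F (stdEven W.T₀.C) (lineIso W.F)
  obtain ⟨b⟩ := M.nonempty_muBasis
  obtain ⟨P, ⟨A⟩⟩ := hE W _ M b
  obtain ⟨Y⟩ := hX W _ P
  let m : Mdl W := ⟨_, M, b, P, A, Y⟩
  have hr := hR hF W (hG W) m (hTT hTate W m)
  have hw : (2 * 3 ^ (j + 1) - 1 : ℤ) + 1 = Det.w0 j := by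
    rw [Det.w0]
    ring
  have hd := hP W (hG W) m hr (hQ W (hG W) m hr) j _ hj hw
  obtain ⟨H₀, _, _, hH₀⟩ := Dt.exists_HFmon W.F (p := 3) (by norm_num)
  refine Tr.trans W.F S.toSpaceFunctor hH₀ he 3 _ (fun θ₀ => ?_) θ
  let c : (stdEven W.T₀.C).S (2 * 3 ^ (j + 1) - 1) ≅ (𝟙_ W.T₀.C)⟦(4 * 3 ^ (j + 1) - 2 : ℤ)⟧ :=
    (stdEven W.T₀.C).sphIso (Iso.refl _) _ ≪≫ eqToIso (by congr 2; ring)
  have h := (hD W (hG W) m j _ (by omega) hw hd H₀ hH₀ (c.hom ≫ θ₀)).pre c.inv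
  rwa [Iso.inv_hom_id_assoc] at h

/-- The final statement (filtration form). -/
def FIN : Prop :=
  (∃ T : SHCat, Nonempty (Susp T)) ∧ ∀ (T : SHCat) (_ : Susp T),
    (∃ (H : T.C) (e : Hom T.one H), IsHF 3 e) ∧
    ∀ (H : T.C) (e : Hom T.one H), IsHF 3 e → Nonempty (AdamsTower e) ∧
      ∀ (A : AdamsTower e) (j : ℕ), 4 ≤ j →
        ∀ θ : Hom (sph T (4 * 3 ^ (j + 1) - 2)) T.one, A.FiltGe 3 θ

theorem exists_isHF (T : SHCat) (S : Susp T) : ∃ (H : T.C) (e : Hom T.one H), IsHF 3 e := by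
  have := locallySmall_self.{0} T.C
  obtain ⟨H, e, he⟩ := Tr.exists_HF S.toSpaceFunctor 3 (by norm_num)
  exact ⟨H, e, (isHF_iff 3).2 he⟩

theorem fin_of_af3 (h : AF3) : FIN :=
  ⟨nonempty_susp, fun T S => ⟨exists_isHF T S, fun H e he => ⟨nonempty_tower e,
    fun A j hj θ => filtGe_three A (h T S H e ((isHF_iff 3).1 he) j hj θ)⟩⟩⟩

theorem fin_of (hT : StTower) (hG : StGeo) (hE : StE) (hX : MODX) (hTate : Tate.TATE)
    (hTT : StTT) (hF : Force.FORCE) (hR : StRows) (hQ : StQ) (hP : StPer) (hD : StDG) : FIN :=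
  fin_of_af3 (af3_of hT hG hE hX hTate hTT hF hR hQ hP hD)

end Vale.Agent.P236Z.Top
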