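import Vale.Agent.P236Z.Cat.Api0
import Vale.Agent.P236Z.Dt.Top
import Vale.Agent.P251.M.Theory
import Vale.Agent.P251.Q.Ring
import Mathlib.Analysis.SpecialFunctions.Complex.Circle

/-!
# P236: representation spheres, Euler classes and diagonals (definitions and statements)

For a step `s`, `s.Lr` is the sphere of the rotation by a third of the full angle (the subgroup acts
trivially); `W.L` is the sphere of the faithful representation of the group of order nine.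
-/

open CategoryTheory MonoidalCategory Limits Pretriangulated
open Functor.LaxMonoidal Functor.OplaxMonoidal
open Vale.Agent.P251 Vale.Agent.P251.T Vale.Agent.P251.G Vale.Agent.P251.I Vale.Agent.P251.M

noncomputable section

namespace Vale.Agent.P236Z.Cat

/-- the rotation of the plane -/
def rotF (z : Circle) : CCF ⟶ CCF :=
  FCat.hom (LC.ofHomeo (X := LC.of ℂ) (Y := LC.of ℂ)
    (Homeomorph.mulLeft₀ (z : ℂ) (Circle.coe_ne_zero z))).hom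

theorem rotF_mul (z w : Circle) : rotF z ≫ rotF w = rotF (w * z) := by
  apply ObjectProperty.hom_ext
  apply LC.hom_ext
  intro x
  change ((((w : ℂ) * ((z : ℂ) * x) : ℂ)) : OnePoint ℂ) = ((((w * z : Circle) : ℂ) * x : ℂ) : OnePoint ℂ)
  rw [Circle.coe_mul, mul_assoc]

theorem rotF_one : rotF 1 = 𝟙 _ := by
  apply ObjectProperty.hom_ext
  apply LC.hom_ext
  intro x
  change (((((1 : Circle) : ℂ) * x : ℂ)) : OnePoint ℂ) = ((x : ℂ) : OnePoint ℂ)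
  rw [Circle.coe_one, one_mul]

/-- the origin of the plane -/
def orgF : 𝟙_ FCat ⟶ CCF := FCat.hom (LC.point (X := LC.of ℂ) (0 : ℂ))

theorem orgF_rotF (z : Circle) : orgF ≫ rotF z = orgF := by
  apply ObjectProperty.hom_ext
  apply LC.hom_ext
  intro x
  change ((((z : ℂ) * 0 : ℂ)) : OnePoint ℂ) = ((0 : ℂ) : OnePoint ℂ)
  rw [mul_zero]

/-- the threefold diagonal -/
def dgF (X : FCat) : X ⟶ X ⊗ X ⊗ X :=
  FCat.hom (Q.diag X.obj ≫ X.obj ◁ Q.diag X.obj)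

theorem dgF_rot (X : FCat) : dgF X ≫ rot X X X = dgF X := by
  apply ObjectProperty.hom_ext
  apply LC.hom_ext
  intro x
  rfl

/-- the primitive ninth root of unity -/
def z9 : Circle := Circle.exp (2 * Real.pi / 9)

/-- the primitive third root of unity -/
def z3 : Circle := z9 * (z9 * z9)

theorem z3_cube : z3 * z3 * z3 = 1 := by
  rw [z3, z9]
  simp only [← Circle.exp_add]
  rw [← Circle.exp_two_pi]
  congr 1
  ring

section

variable {K : Type 1} [Category.{0} K] [MonoidalCategory K] [SymmetricCategory K] {tK : Tw K}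
  (v : FCat ⥤ K) [v.Braided] (hv : ∀ X, (tK.h (v.obj X)).hom = 𝟙 _)

/-- the plane with the rotation by a third of the full angle -/
def Pl : Rt tK := ⟨v.obj CCF, v.map (rotF z3), by
  rw [← v.map_comp, ← v.map_comp, rotF_mul, rotF_mul, z3_cube, rotF_one, v.map_id, hv]⟩

/-- the origin -/
def org : 𝟙_ (Rt tK) ⟶ Pl v hv := Rt.homMk (ε v ≫ v.map orgF)
  ((Category.id_comp _).trans (show ε v ≫ v.map orgF = (ε v ≫ v.map orgF) ≫ v.map (rotF z3) by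
    rw [Category.assoc, ← v.map_comp, orgF_rotF]))

theorem map_rot (X Y Z : FCat) :
    v.map (rot X Y Z) ≫ δ v Z (X ⊗ Y) ≫ v.obj Z ◁ δ v X Y =
      δ v X (Y ⊗ Z) ≫ v.obj X ◁ δ v Y Z ≫ rot _ _ _ := by
  rw [rot, rot, v.map_comp, Category.assoc, Functor.map_braiding]
  simp only [Category.assoc, Functor.Monoidal.μ_δ_assoc,
    ← BraidedCategory.braiding_naturality_left]
  rw [Functor.OplaxMonoidal.associativity_inv_assoc]

/-- the diagonal -/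
def dgK (X : FCat) : (Rt.triv v hv).obj X ⟶ (Rt.N tK).obj (v.obj X) :=
  Rt.homMk (v.map (dgF X) ≫ δ v X (X ⊗ X) ≫ v.obj X ◁ δ v X X)
    ((Category.id_comp _).trans (show v.map (dgF X) ≫ δ v X (X ⊗ X) ≫ v.obj X ◁ δ v X X =
      (v.map (dgF X) ≫ δ v X (X ⊗ X) ≫ v.obj X ◁ δ v X X) ≫ tK.rot (v.obj X) by
    rw [Tw.rot, hv, id_tensorHom_id, id_tensorHom_id, Category.comp_id,
      Category.assoc, Category.assoc, ← map_rot, ← v.map_comp_assoc, dgF_rot]))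

end

/-- the plane with the rotation by a ninth of the full angle -/
def Pl9 : K2 := ⟨Pl (𝟭 FCat) hv0, Rt.homMk (rotF z9) (by
    change rotF z3 ≫ rotF z9 = rotF z9 ≫ rotF z3
    rw [rotF_mul, rotF_mul, mul_comm]), Rt.hom_ext (by
    change rotF z9 ≫ rotF z9 ≫ rotF z9 = rotF z3
    rw [rotF_mul, rotF_mul, mul_comm, z3])⟩

/-- the origin -/
def org9 : 𝟙_ K2 ⟶ Pl9 := Rt.homMk (org (𝟭 FCat) hv0) (Rt.hom_ext (by
  change 𝟙 _ ≫ 𝟙 _ ≫ orgF = (𝟙 _ ≫ orgF) ≫ rotF z9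
  rw [Category.assoc, orgF_rotF, Category.id_comp]))

/-- `a : 𝟙 ⟶ L` has the cell structure of a rotation sphere of order `n` with cells `F`, and `r` is
its fundamental class. -/
def IsRep {C : TTC} {F L : C.C} (g : F ⟶ F) (e : F ⟶ 𝟙_ C.C) (a : 𝟙_ C.C ⟶ L) (n : ℕ)
    (r : (F⟦(1 : ℤ)⟧)⟦(1 : ℤ)⟧ ⟶ L) : Prop :=
  ∃ (P : C.C) (e₀ : F ⟶ P) (e₁ : P ⟶ F⟦(1 : ℤ)⟧) (p : P ⟶ 𝟙_ C.C) (b : L ⟶ P⟦(1 : ℤ)⟧),
    H.Dist (𝟙 F - g) e₀ e₁ ∧ H.Dist p a b ∧ e₀ ≫ p = e ∧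
      r ≫ b ≫ e₁⟦(1 : ℤ)⟧' = ((∑ i ∈ Finset.range n, Dt.pw g i)⟦(1 : ℤ)⟧')⟦(1 : ℤ)⟧'

section

variable {T₀ : TTC} {F : SpaceFunctor T₀.C} {T T' : TTC} {K : Type 1} [Category.{0} K]
  [MonoidalCategory K] [SymmetricCategory K] {tK : Tw K} {u : K ⥤ FCat} {v : FCat ⥤ K}
  [v.Braided] {hv : ∀ X, (tK.h (v.obj X)).hom = 𝟙 _} {L : Lvl T₀ F T tK u v}
  {L' : Lvl T₀ F T' (Rt.tw tK) (Rt.U tK ⋙ u) (Rt.triv v hv)} (s : Step L L')

namespace Step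

/-- the rotation sphere of the step -/
def Lr (_ : Step L L') : T'.C := L'.J.obj (Pl v hv)

/-- its Euler class -/
def ar : 𝟙_ T'.C ⟶ s.Lr := ε L'.J ≫ L'.J.map (org v hv)

/-- the orbit -/
abbrev O : T'.C := s.ind.obj (𝟙_ T.C)

/-- the projection of the orbit to the point -/
def oe : s.O ⟶ 𝟙_ T'.C := (s.adj.homEquiv _ _).symm (ε s.U.F)

/-- the diagonal of a space with trivial action -/
def dg (X : FCat) : L'.tv.F.obj (F.S.obj X) ⟶ s.N.obj (L.tv.F.obj (F.S.obj X)) :=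
  L'.Jtv.inv.app X ≫ L'.J.map (dgK v hv X) ≫ s.JN.inv.app (v.obj X) ≫ s.N.map (L.Jtv.hom.app X)

/-- the underlying map of a map out of a double suspension of an induced object -/
def flat2 {A : T.C} {B : T'.C} (r : ((s.ind.obj A)⟦(1 : ℤ)⟧)⟦(1 : ℤ)⟧ ⟶ B) :
    (A⟦(1 : ℤ)⟧)⟦(1 : ℤ)⟧ ⟶ s.U.F.obj B :=
  ((s.adj.unit.app A)⟦(1 : ℤ)⟧' ≫ (s.U.F.commShiftIso (1 : ℤ)).inv.app _)⟦(1 : ℤ)⟧' ≫
    (s.U.F.commShiftIso (1 : ℤ)).inv.app _ ≫ s.U.F.map r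

/-- (GEO, cells) the cells of the rotation sphere -/
def Cel : Prop :=
  (∃ r, IsRep (L'.t.h s.O).hom s.oe s.ar 3 r ∧ IsIso (s.flat2 r)) ∧ s.γ s.Lr = 𝟙 _

/-- (GEO, norm) the norm of the circle; the diagonal is the Euler class -/
def NSph : Prop :=
  ∃ ω : s.N.obj (L.tv.F.obj (F.S.obj RRF)) ≅ L'.tv.F.obj (F.S.obj RRF) ⊗ s.Lr,
    s.dg RRF ≫ ω.hom = (ρ_ _).inv ≫ _ ◁ s.ar

/-- (GEO, norm) the norm of the plane; the diagonal is the square of the Euler class -/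
def NPl : Prop :=
  ∃ ω : s.N.obj (L.tv.F.obj (F.S.obj CCF)) ≅ L'.tv.F.obj (F.S.obj CCF) ⊗ (s.Lr ⊗ s.Lr),
    s.dg CCF ≫ ω.hom = (ρ_ _).inv ≫ _ ◁ ((λ_ _).inv ≫ (s.ar ⊗ₘ s.ar))

/-- (GEO, diagonal) the diagonal is natural and multiplicative -/
def DgNat : Prop :=
  (∀ {X Y : FCat} (f : X ⟶ Y), L'.tv.F.map (F.S.map f) ≫ s.dg Y =
    s.dg X ≫ s.N.map (L.tv.F.map (F.S.map f))) ∧
  (∀ X Y : FCat, μ L'.tv.F _ _ ≫ L'.tv.F.map (μ F.S X Y) ≫ s.dg (X ⊗ Y) =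
    (s.dg X ⊗ₘ s.dg Y) ≫ μ s.N _ _ ≫ s.N.map (μ L.tv.F _ _ ≫ L.tv.F.map (μ F.S X Y))) ∧
  ε L'.tv.F ≫ L'.tv.F.map (ε F.S) ≫ s.dg (𝟙_ FCat) =
    ε s.N ≫ s.N.map (ε L.tv.F ≫ L.tv.F.map (ε F.S))

end Step

end

namespace Tower

variable (W : Tower)

/-- the sphere of the faithful representation of the group of order nine -/
def L : W.T₂.C := W.L₂.J.obj Pl9

/-- its Euler class -/
def a : 𝟙_ W.T₂.C ⟶ W.L := ε W.L₂.J ≫ W.L₂.J.map org9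

/-- the restriction of `L` -/
def UL : W.s₂.U.F.obj W.L ≅ W.s₁.Lr := W.s₂.JU.app Pl9

/-- the free orbit -/
abbrev G : W.T₂.C := W.s₂.ind.obj W.s₁.O

/-- the projection to the orbit with three points -/
def gq : W.G ⟶ W.s₂.O := W.s₂.ind.map W.s₁.oe

/-- the underlying object -/
abbrev U : W.T₂.C ⥤ W.T₀.C := W.s₂.U.F ⋙ W.s₁.U.F

/-- (GEO, faithful) the cells of `L`; the generator acts trivially on the restriction of `L` -/
def Cel9 : Prop :=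
  (∃ r, IsRep (W.L₂.t.h W.G).hom (W.gq ≫ W.s₂.oe) W.a 9 r ∧
    ∃ r' : ((W.s₁.O)⟦(1 : ℤ)⟧)⟦(1 : ℤ)⟧ ⟶ W.s₂.U.F.obj W.L,
      W.s₂.flat2 r = r' ∧ IsIso (W.s₁.flat2 r')) ∧
  W.s₂.γ W.L = 𝟙 _ ∧ W.s₂.U.F.map W.a ≫ W.UL.hom = η W.s₂.U.F ≫ W.s₁.ar

/-- the geometric facts -/
structure Geo : Prop where
  c1 : W.s₁.Cel
  c2 : W.s₂.Cel
  c9 : W.Cel9
  n1 : W.s₁.NSph
  n2 : W.s₂.NSph
  p1 : W.s₁.NPl
  d1 : W.s₁.DgNat
  p2 : W.s₂.NPl
  d2 : W.s₂.DgNat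

end Tower

/-- (GEO) -/
def StGeo : Prop := ∀ W : Tower, W.Geo

end Vale.Agent.P236Z.Cat
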