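import Vale.Agent.P236Z.Top.Geo
import Vale.Agent.P236Z.Cat.Wir

/-!
# P236: free objects of rank one over a cyclic group and the fundamental class of a rotation sphere
-/

open CategoryTheory Limits Pretriangulated Category
open Vale.Agent.P251 Vale.Agent.P251.H

universe v u v' u'

namespace Vale.Agent.P236Z.Cat.Ga

section pw
variable {C : Type u} [Category.{v} C]

theorem pw_add {X : C} (g : X ⟶ X) (m n : ℕ) : Dt.pw g (m + n) = Dt.pw g m ≫ Dt.pw g n := by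
  induction m with
  | zero => rw [Nat.zero_add]; exact (id_comp _).symm
  | succ m ih => rw [Nat.add_right_comm]; exact (congrArg (g ≫ ·) ih).trans (assoc _ _ _).symm

@[reassoc]
theorem pw_comm {X Y : C} {g : X ⟶ X} {g' : Y ⟶ Y} {f : X ⟶ Y} (h : g ≫ f = f ≫ g') (n : ℕ) :
    Dt.pw g n ≫ f = f ≫ Dt.pw g' n := by
  induction n with
  | zero => exact (id_comp _).trans (comp_id _).symm
  | succ n ih => rw [Dt.pw, Dt.pw, assoc, ih, reassoc_of% h]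

theorem map_pw {D : Type u'} [Category.{v'} D] (G : C ⥤ D) {X : C} (g : X ⟶ X) (n : ℕ) :
    G.map (Dt.pw g n) = Dt.pw (G.map g) n := by
  induction n with
  | zero => exact G.map_id _
  | succ n ih => rw [Dt.pw, Dt.pw, G.map_comp, ih]

end pw

variable {C : Type u} [Category.{v} C] [Preadditive C]

/-- `A` is the sum of the `n` translates of `η` -/
def Free (n : ℕ) {E A : C} (η : E ⟶ A) (g : A ⟶ A) : Prop :=
  ∃ π : ℕ → (A ⟶ E), (∀ i < n, ∀ j < n, η ≫ Dt.pw g i ≫ π j = if i = j then 𝟙 E else 0) ∧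
    ∑ i ∈ Finset.range n, π i ≫ η ≫ Dt.pw g i = 𝟙 A

variable {n : ℕ} {E A E' A' : C} {η : E ⟶ A} {g : A ⟶ A} {η' : E' ⟶ A'} {g' : A' ⟶ A'}

theorem Free.ext (h : Free n η g) {W : C} {f f' : A ⟶ W}
    (hf : ∀ i < n, η ≫ Dt.pw g i ≫ f = η ≫ Dt.pw g i ≫ f') : f = f' := by
  obtain ⟨π, -, h⟩ := h
  rw [← id_comp f, ← id_comp f', ← h, Preadditive.sum_comp, Preadditive.sum_comp]
  refine Finset.sum_congr rfl fun i hi => ?_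
  simp only [assoc, hf i (Finset.mem_range.1 hi)]

theorem sum_δ {π : ℕ → (A ⟶ E)}
    (h : ∀ i < n, ∀ j < n, η ≫ Dt.pw g i ≫ π j = if i = j then 𝟙 E else 0) {W : C}
    (x : ℕ → (E ⟶ W)) {i : ℕ} (hi : i < n) :
    η ≫ Dt.pw g i ≫ ∑ j ∈ Finset.range n, π j ≫ x j = x i := by
  rw [Preadditive.comp_sum, Preadditive.comp_sum, Finset.sum_eq_single i]
  · rw [reassoc_of% (h i hi i hi).trans (if_pos rfl)]
  · intro j hj hji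
    rw [reassoc_of% h i hi j (Finset.mem_range.1 hj), if_neg (Ne.symm hji), zero_comp]
  · exact fun h => absurd (Finset.mem_range.2 hi) h

theorem Free.map {D : Type u'} [Category.{v'} D] [Preadditive D] (G : C ⥤ D) [G.Additive]
    (h : Free n η g) : Free n (G.map η) (G.map g) := by
  obtain ⟨π, h1, h2⟩ := h
  refine ⟨fun i => G.map (π i), fun i hi j hj => ?_, ?_⟩
  · rw [← map_pw, ← G.map_comp, ← G.map_comp, h1 i hi j hj]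
    split_ifs <;> simp
  · simp only [← map_pw, ← G.map_comp]
    rw [← G.map_sum, h2, G.map_id]

theorem Free.of_iso (h : Free n η g) (α : E' ⟶ E) (β : A ⟶ A') [IsIso α] [IsIso β]
    (hη : η' = α ≫ η ≫ β) (hg : g ≫ β = β ≫ g') : Free n η' g' := by
  obtain ⟨π, h1, h2⟩ := h
  refine ⟨fun i => inv β ≫ π i ≫ inv α, fun i hi j hj => ?_, ?_⟩
  · rw [hη, assoc, assoc, ← pw_comm_assoc hg, IsIso.hom_inv_id_assoc, reassoc_of% h1 i hi j hj]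
    split_ifs <;> simp
  · have h3 := congrArg (inv β ≫ · ≫ β) h2
    simp only [Preadditive.sum_comp, Preadditive.comp_sum, id_comp, IsIso.inv_hom_id, assoc,
      pw_comm hg] at h3
    simpa [hη] using h3

theorem Free.isIso {η' : E ⟶ A'} (h : Free n η g) (h' : Free n η' g') (f : A ⟶ A')
    (hη : η ≫ f = η') (hg : g ≫ f = f ≫ g') : IsIso f := by
  obtain ⟨π, h1, h2⟩ := h'
  refine ⟨∑ i ∈ Finset.range n, π i ≫ η ≫ Dt.pw g i, h.ext fun i hi => ?_, ?_⟩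
  · rw [pw_comm_assoc hg, reassoc_of% hη, sum_δ h1 _ hi, comp_id]
  · rw [Preadditive.sum_comp, ← h2]
    refine Finset.sum_congr rfl fun i _ => ?_
    rw [assoc, assoc, pw_comm hg, reassoc_of% hη]

theorem Free.comp {A₁ : C} {η₁ : E ⟶ A₁} {g₁ : A₁ ⟶ A₁} {η₂ : A₁ ⟶ A} (h₁ : Free 3 η₁ g₁)
    (h₂ : Free 3 η₂ g) (h : g₁ ≫ η₂ = η₂ ≫ Dt.pw g 3) : Free 9 (η₁ ≫ η₂) g := by
  have key : ∀ i j, (η₁ ≫ η₂) ≫ Dt.pw g (3 * j + i) = η₁ ≫ Dt.pw g₁ j ≫ η₂ ≫ Dt.pw g i := by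
    intro i j
    rw [pw_add, pw_comm_assoc h, assoc]
    congr 3
    induction j with
    | zero => rfl
    | succ j ih => rw [Nat.mul_succ, pw_add, ih, Dt.pw_succ' (Dt.pw g 3)]
  obtain ⟨π₁, a₁, -⟩ := id h₁
  obtain ⟨π₂, a₂, -⟩ := id h₂
  have hδ : ∀ i < 9, ∀ j < 9, (η₁ ≫ η₂) ≫ Dt.pw g i ≫ π₂ (j % 3) ≫ π₁ (j / 3) =
      if i = j then 𝟙 E else 0 := by
    intro i hi j hj
    rw [← Nat.div_add_mod i 3, assoc, reassoc_of% key, reassoc_of% a₂ _ (by omega) _ (by omega),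
      Nat.div_add_mod]
    by_cases h3 : i % 3 = j % 3
    · rw [if_pos h3, id_comp, a₁ _ (by omega) _ (by omega)]
      exact if_congr (by omega) rfl rfl
    · rw [if_neg h3, if_neg (by omega), zero_comp, comp_zero, comp_zero]
  refine ⟨fun k => π₂ (k % 3) ≫ π₁ (k / 3), hδ, h₂.ext fun i hi => h₁.ext fun j hj => ?_⟩
  rw [← reassoc_of% key, ← assoc η₁, sum_δ hδ _ (by omega), comp_id, key]

variable [HasZeroObject C] [HasShift C ℤ] [∀ n : ℤ, (shiftFunctor C n).Additive]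
  [Pretriangulated C]

theorem exists_fund (h : Free n η g) (hn : 0 < n) (hg : η ≫ Dt.pw g n = η) {P L : C} {e₀ : A ⟶ P}
    {e₁ : P ⟶ A⟦(1 : ℤ)⟧} {p : P ⟶ E'} {a : E' ⟶ L} {b : L ⟶ P⟦(1 : ℤ)⟧}
    (D₁ : Dist (𝟙 A - g) e₀ e₁) (D₂ : Dist p a b) [IsIso (η ≫ e₀ ≫ p)] :
    ∃ r : (E⟦(1 : ℤ)⟧)⟦(1 : ℤ)⟧ ⟶ L, IsIso r ∧ r ≫ b ≫ e₁⟦(1 : ℤ)⟧' =
      ((η ≫ ∑ i ∈ Finset.range n, Dt.pw g i)⟦(1 : ℤ)⟧')⟦(1 : ℤ)⟧' := by
  obtain ⟨π, h1, h2⟩ := id h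
  set ν := η ≫ ∑ i ∈ Finset.range n, Dt.pw g i with hν
  have hπ : ∀ i, i + 1 < n → g ≫ π (i + 1) = π i := fun i hi => h.ext fun j hj => by
    rw [← assoc (Dt.pw g j), ← Dt.pw_succ', h1 j hj i (by omega)]
    by_cases hj' : j + 1 < n
    · rw [h1 _ hj' _ hi]
      exact if_congr (by omega) rfl rfl
    · obtain rfl : n = j + 1 := by omega
      have h0 := h1 0 hn _ hi
      rw [Dt.pw, id_comp] at h0
      rw [reassoc_of% hg, h0, if_neg (by omega), if_neg (by omega)]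
  have hνπ : ν ≫ π 0 = 𝟙 E := by
    rw [hν, assoc, Preadditive.sum_comp, Preadditive.comp_sum, Finset.sum_eq_single 0,
      h1 0 hn 0 hn, if_pos rfl]
    · exact fun j hj hj0 => by rw [h1 j (Finset.mem_range.1 hj) 0 hn, if_neg hj0]
    · exact fun h => absurd (Finset.mem_range.2 hn) h
  have hνg : ν ≫ (𝟙 A - g) = 0 := by
    have : ∀ m, (∑ i ∈ Finset.range m, Dt.pw g i) ≫ (𝟙 A - g) = 𝟙 A - Dt.pw g m := fun m => by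
      induction m with
      | zero => simp [Dt.pw]
      | succ m ih =>
        rw [Finset.sum_range_succ, Preadditive.add_comp, ih, Dt.pw_succ', Preadditive.comp_sub,
          comp_id, sub_add_sub_cancel]
    rw [hν, assoc, this, Preadditive.comp_sub, hg, comp_id, sub_self]
  have he₁ : e₁ ≫ (π 0)⟦(1 : ℤ)⟧' ≫ ν⟦(1 : ℤ)⟧' = e₁ := by
    have h3 : e₁ ≫ g⟦(1 : ℤ)⟧' = e₁ := by
      have := D₁.zero₃₁
      rwa [Functor.map_sub, Preadditive.comp_sub, CategoryTheory.Functor.map_id, comp_id,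
        sub_eq_zero, eq_comm] at this
    have h4 : ∀ i < n, e₁ ≫ (π 0)⟦(1 : ℤ)⟧' = e₁ ≫ (π i)⟦(1 : ℤ)⟧' := fun i hi => by
      induction i with
      | zero => rfl
      | succ i ih => rw [ih (by omega), ← hπ i hi, Functor.map_comp, reassoc_of% h3]
    conv_rhs => rw [← comp_id e₁, ← CategoryTheory.Functor.map_id, ← h2]
    rw [hν, Preadditive.comp_sum, Functor.map_sum, Functor.map_sum, Preadditive.comp_sum,
      Preadditive.comp_sum, Preadditive.comp_sum]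
    refine Finset.sum_congr rfl fun i hi => ?_
    rw [reassoc_of% h4 i (Finset.mem_range.1 hi), ← Functor.map_comp]
  have hge : ∀ i, Dt.pw g i ≫ e₀ = e₀ := fun i => by
    have := D₁.zero₁₂
    rw [Preadditive.sub_comp, id_comp, sub_eq_zero] at this
    induction i with
    | zero => exact id_comp _
    | succ i ih => rw [Dt.pw, assoc, ih, ← this]
  set c := inv (η ≫ e₀ ≫ p) with hc
  have hc1 : η ≫ e₀ ≫ p ≫ c = 𝟙 E := by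
    simpa only [assoc] using IsIso.hom_inv_id (η ≫ e₀ ≫ p)
  have hc2 : c ≫ η ≫ e₀ ≫ p = 𝟙 E' := IsIso.inv_hom_id _
  have he₀ : e₀ ≫ p ≫ c ≫ η ≫ e₀ = e₀ := h.ext fun i _ => by
    rw [reassoc_of% hge, reassoc_of% hc1, hge]
  obtain ⟨s₀, hs₀⟩ := D₁.lift₁ (ν⟦(1 : ℤ)⟧') (by rw [← Functor.map_comp, hνg, Functor.map_zero])
  obtain ⟨s, hs₁, hs₂⟩ : ∃ s : E⟦(1 : ℤ)⟧ ⟶ P, s ≫ e₁ = ν⟦(1 : ℤ)⟧' ∧ s ≫ p = 0 :=
    ⟨s₀ - s₀ ≫ p ≫ c ≫ η ≫ e₀, by simp [hs₀, D₁.zero₂₃], by simp [hc2]⟩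
  obtain ⟨y, hy⟩ := D₁.lift₃ (𝟙 P - e₁ ≫ (π 0)⟦(1 : ℤ)⟧' ≫ s) (by simp [hs₁, he₁])
  have hP : e₁ ≫ (π 0)⟦(1 : ℤ)⟧' ≫ s = 𝟙 P - p ≫ c ≫ η ≫ e₀ := by
    have : p ≫ c ≫ η ≫ e₀ = y ≫ e₀ := by
      rw [← he₀, reassoc_of% hy]
      simp [reassoc_of% hs₂, he₀]
    rw [this, hy, sub_sub_cancel]
  have ha : a = 0 := by rw [← id_comp a, ← hc2]; simp [D₂.zero₁₂]
  obtain ⟨r, hr⟩ := D₂.lift₁ (s⟦(1 : ℤ)⟧') (by rw [← Functor.map_comp, hs₂, Functor.map_zero])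
  refine ⟨r, ⟨b ≫ (e₁ ≫ (π 0)⟦(1 : ℤ)⟧')⟦(1 : ℤ)⟧', ?_, ?_⟩, ?_⟩
  · rw [reassoc_of% hr, ← Functor.map_comp, reassoc_of% hs₁, ← Functor.map_comp, hνπ]
    simp
  · obtain ⟨z, hz⟩ := D₂.lift₃ ((b ≫ (e₁ ≫ (π 0)⟦(1 : ℤ)⟧')⟦(1 : ℤ)⟧') ≫ r - 𝟙 L) (by
      rw [Preadditive.sub_comp, assoc, assoc, hr, ← Functor.map_comp, assoc, hP]
      simp [reassoc_of% D₂.zero₃₁])
    rwa [ha, comp_zero, eq_comm, sub_eq_zero] at hz
  · rw [reassoc_of% hr, ← Functor.map_comp, hs₁]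

/-- the cells of a rotation sphere -/
def Pre {F E L : C} (g : F ⟶ F) (e : F ⟶ E) (a : E ⟶ L) : Prop :=
  ∃ (P : C) (e₀ : F ⟶ P) (e₁ : P ⟶ F⟦(1 : ℤ)⟧) (p : P ⟶ E) (b : L ⟶ P⟦(1 : ℤ)⟧),
    Dist (𝟙 F - g) e₀ e₁ ∧ Dist p a b ∧ e₀ ≫ p = e

theorem Pre.of_iso {L L' : C} {e : A ⟶ E} {a : E ⟶ L} (h : Pre g e a) (φ : A' ⟶ A) (u : E' ⟶ E)
    (l : L ⟶ L') [IsIso φ] [IsIso u] [IsIso l] {e' : A' ⟶ E'} {a' : E' ⟶ L'}
    (hg : g' ≫ φ = φ ≫ g) (he : e' ≫ u = φ ≫ e) (ha : a' = u ≫ a ≫ l) : Pre g' e' a' := by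
  obtain ⟨P, e₀, e₁, p, b, D₁, D₂, h⟩ := h
  refine ⟨P, φ ≫ e₀, e₁ ≫ (inv φ)⟦(1 : ℤ)⟧', p ≫ inv u, inv l ≫ b, ?_, ?_, ?_⟩
  · refine isomorphic_distinguished _ D₁ _
      (Triangle.isoMk _ _ (asIso φ :) (asIso φ :) (Iso.refl P) ?_ ?_ ?_)
    · show (𝟙 A' - g') ≫ φ = φ ≫ (𝟙 A - g); simp [hg]
    · show (φ ≫ e₀) ≫ 𝟙 P = φ ≫ e₀; simp
    · show (e₁ ≫ (inv φ)⟦(1 : ℤ)⟧') ≫ φ⟦(1 : ℤ)⟧' = 𝟙 P ≫ e₁; simp
  · refine isomorphic_distinguished _ D₂ _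
      (Triangle.isoMk _ _ (Iso.refl P) (asIso u :) (asIso l).symm ?_ ?_ ?_)
    · show (p ≫ inv u) ≫ u = 𝟙 P ≫ p; simp
    · show a' ≫ inv l = u ≫ a; simp [ha]
    · show (inv l ≫ b) ≫ (𝟙 P)⟦(1 : ℤ)⟧' = inv l ≫ b; simp
  · rw [assoc, reassoc_of% h, ← reassoc_of% he, IsIso.hom_inv_id, comp_id]

/-- the connecting morphism of the two end points of an interval -/
theorem seg {W B Q : C} {i : W ⟶ B} {q : B ⟶ Q} {d : Q ⟶ W⟦(1 : ℤ)⟧} (D : Dist i q d)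
    {ι₀ ι₁ : A ⟶ W} {p₀ p₁ : W ⟶ A} (c : B ⟶ A) [IsIso c] (h : p₀ ≫ ι₀ + p₁ ≫ ι₁ = 𝟙 W)
    (h₀ : ι₀ ≫ i ≫ c = 𝟙 A) (h₁ : ι₁ ≫ i ≫ c = 𝟙 A) (h₀₁ : ι₀ ≫ p₁ = 0) (h₁₁ : ι₁ ≫ p₁ = 𝟙 A) :
    ∃ τ : A⟦(1 : ℤ)⟧ ⟶ Q, IsIso τ ∧ τ ≫ d = (ι₁ - ι₀)⟦(1 : ℤ)⟧' := by
  obtain ⟨τ, hτ⟩ := D.lift₁ ((ι₁ - ι₀)⟦(1 : ℤ)⟧') (by
    have : (ι₁ - ι₀) ≫ i = 0 := by rw [← cancel_mono c]; simp [h₀, h₁]
    rw [← Functor.map_comp, this, Functor.map_zero])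
  have hq : q = 0 := by
    have : c ≫ ι₀ ≫ i = 𝟙 B := by rw [← cancel_mono c]; simp [h₀]
    rw [← id_comp q, ← this]; simp [D.zero₁₂]
  have h2 : p₁ ≫ (ι₁ - ι₀) = 𝟙 W - i ≫ c ≫ ι₀ := by
    rw [← id_comp (i ≫ c ≫ ι₀), ← h]
    simp [reassoc_of% h₀, reassoc_of% h₁]
  refine ⟨τ, ⟨d ≫ p₁⟦(1 : ℤ)⟧', ?_, ?_⟩, hτ⟩
  · rw [reassoc_of% hτ, ← Functor.map_comp]
    simp [h₀₁, h₁₁]
  · obtain ⟨z, hz⟩ := D.lift₃ ((d ≫ p₁⟦(1 : ℤ)⟧') ≫ τ - 𝟙 Q) (by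
      rw [Preadditive.sub_comp, assoc, assoc, hτ, ← Functor.map_comp, h2]
      simp [reassoc_of% D.zero₃₁])
    rwa [hq, comp_zero, eq_comm, sub_eq_zero] at hz

theorem unrot {X Y Z : C} {f : X ⟶ Y} {g : Y ⟶ Z} {h : Z ⟶ X⟦(1 : ℤ)⟧}
    (D : Dist g h (-f⟦(1 : ℤ)⟧')) : Dist f g h :=
  (rotate_distinguished_triangle (Triangle.mk f g h)).2 D

end Vale.Agent.P236Z.Cat.Ga
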