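import Vale.Agent.P236Z.Top.GeoZs
import Vale.Agent.P236Z.Cat.Proj

/-!
# P236: the cells of the rotation spheres (`Step.cel`, `Tower.cel1`, `Tower.cel2`, `Tower.cel9`)
-/

open CategoryTheory MonoidalCategory Limits Pretriangulated Real
open Functor.LaxMonoidal Functor.OplaxMonoidal
open Vale.Agent.P251 Vale.Agent.P251.T Vale.Agent.P251.G Vale.Agent.P251.I Vale.Agent.P251.M
open Vale.Agent.P251.H

noncomputable section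

namespace Vale.Agent.P236Z.Cat

open Ga

section

variable {T₀ : TTC} {F : SpaceFunctor T₀.C} {T T' : TTC} {K : Type 1} [Category.{0} K]
  [MonoidalCategory K] [SymmetricCategory K] {tK : Tw K} {u : K ⥤ FCat} {v : FCat ⥤ K}
  [v.Braided] {hv : ∀ X, (tK.h (v.obj X)).hom = 𝟙 _} {L : Lvl T₀ F T tK u v}
  {L' : Lvl T₀ F T' (Rt.tw tK) (Rt.U tK ⋙ u) (Rt.triv v hv)} (s : Step L L')

theorem Lvl.ex (L : Lvl T₀ F T tK u v) {n : ℕ} (w : Zs n ⥤ K)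
    (hc : ∀ {A B R : Zs n} {i : A ⟶ B} {q : B ⟶ R}, Zs.Cof i q → IsCof u (w.map i) (w.map q))
    (hi : ∀ {A B : Zs n} (f : A ⟶ B), IsIso (F.S.map f.hom) → IsIso (L.J.map (w.map f))) :
    Zs.Ex (w ⋙ L.J) where
  tri h := ⟨L.cδ (hc h), L.dist _, fun a b h' h1 h2 => by
    have := L.cδ_nat (hc h) (hc h') (w.map a) (w.map b) (𝟙 _)
      (by rw [← w.map_comp, h1, w.map_comp]) (by rw [h2, w.map_comp, Category.comp_id])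
    rw [L.J.map_id, Category.id_comp] at this
    exact (congrArg (Dist _ _) this).mpr (L.dist _)⟩
  iso f h := hi f (M.isIso_of_isHEquiv F _ h)

/-- the comparison with the trivial action -/
def Lvl.jt (L : Lvl T₀ F T tK u v) (X : FCat) : L.J.obj (v.obj X) ≅ L.tv.F.obj (F.S.obj X) :=
  L.Jtv.app X

@[reassoc]
theorem Lvl.jt_nat (L : Lvl T₀ F T tK u v) {X Y : FCat} (f : X ⟶ Y) :
    (L.jt X).inv ≫ L.J.map (v.map f) = L.tv.F.map (F.S.map f) ≫ (L.jt Y).inv :=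
  (L.Jtv.inv.naturality f).symm

theorem Lvl.free (L : Lvl T₀ F T tK u v) {n : ℕ} {X : FCat} {o : 𝟙_ FCat ⟶ X} {ρ : X ⟶ X}
    (h : Free n (F.S.map o) (F.S.map ρ)) :
    Free n (ε L.J ≫ L.J.map (ε v ≫ v.map o)) (L.J.map (v.map ρ)) :=
  (h.map L.tv.F).of_iso (ε L.J ≫ L.J.map (ε v) ≫ (L.jt _).hom) (L.jt _).inv
    (by simp [← L.jt_nat]) (L.jt_nat ρ).symm

theorem Lvl.isIso_v (L : Lvl T₀ F T tK u v) {X Y : FCat} (f : X ⟶ Y) [IsIso (F.S.map f)] :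
    IsIso (L.J.map (v.map f)) := by
  rw [(Iso.inv_comp_eq _).1 (L.jt_nat f)]
  infer_instance

namespace Step

/-- the restriction of a connecting morphism -/
def dn {X Y : T'.C} (b : X ⟶ Y⟦(1 : ℤ)⟧) : s.U.F.obj X ⟶ (s.U.F.obj Y)⟦(1 : ℤ)⟧ :=
  s.U.F.map b ≫ (s.U.F.commShiftIso (1 : ℤ)).hom.app Y

theorem dist_dn {X Y Z : T'.C} {f : X ⟶ Y} {g : Y ⟶ Z} {h : Z ⟶ X⟦(1 : ℤ)⟧} (D : Dist f g h) :
    Dist (s.U.F.map f) (s.U.F.map g) (s.dn h) := s.U.F.map_distinguished _ D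

theorem dist_dn' {X Z : T'.C} {f : X ⟶ X} {g : X ⟶ Z} {h : Z ⟶ X⟦(1 : ℤ)⟧}
    (D : Dist (𝟙 X - f) g h) : Dist (𝟙 _ - s.U.F.map f) (s.U.F.map g) (s.dn h) := by
  rw [← s.U.F.map_id, ← s.U.F.map_sub]
  exact s.dist_dn D

/-- induction commutes with the shift -/
def ci (A : T.C) : s.ind.obj (A⟦(1 : ℤ)⟧) ≅ (s.ind.obj A)⟦(1 : ℤ)⟧ :=
  (s.ind.commShiftIso (1 : ℤ)).app A

theorem un_shift (A : T.C) : (s.un A)⟦(1 : ℤ)⟧' ≫ (s.U.F.commShiftIso (1 : ℤ)).inv.app _ =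
    s.un (A⟦(1 : ℤ)⟧) ≫ s.U.F.map (s.ci A).hom :=
  (congrArg (· ≫ _) (s.adj.shift_unit_app (1 : ℤ) A)).trans (by simp [un, ci])

theorem flat2_def {A : T.C} {B : T'.C} (r : ((s.ind.obj A)⟦(1 : ℤ)⟧)⟦(1 : ℤ)⟧ ⟶ B) :
    s.flat2 r = ((s.un A)⟦(1 : ℤ)⟧' ≫ (s.U.F.commShiftIso (1 : ℤ)).inv.app _)⟦(1 : ℤ)⟧' ≫
      (s.U.F.commShiftIso (1 : ℤ)).inv.app _ ≫ s.U.F.map r := rfl

theorem flat2_bij (A : T.C) (B : T'.C) : Function.Bijective (s.flat2 (A := A) (B := B)) := by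
  let κ : s.ind.obj ((A⟦(1 : ℤ)⟧)⟦(1 : ℤ)⟧) ⟶ ((s.ind.obj A)⟦(1 : ℤ)⟧)⟦(1 : ℤ)⟧ :=
    (s.ci _).hom ≫ (s.ci A).hom⟦(1 : ℤ)⟧'
  have h : ∀ r : _ ⟶ B, s.flat2 r = s.un _ ≫ s.U.F.map (κ ≫ r) := fun r => by
    rw [flat2_def, un_shift, Functor.map_comp, Category.assoc,
      Functor.commShiftIso_inv_naturality_assoc, reassoc_of% s.un_shift]
    simp [κ]
  refine ⟨fun r r' e => (cancel_epi κ).1 (s.un_ext (by rw [← h, ← h, e])), fun y => ?_⟩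
  obtain ⟨f, hf⟩ := s.ind_lift y
  exact ⟨inv κ ≫ f, by rw [h, IsIso.hom_inv_id_assoc, hf]⟩

theorem lift2 {A : T.C} {B P M : T'.C} (r' : (A⟦(1 : ℤ)⟧)⟦(1 : ℤ)⟧ ⟶ s.U.F.obj M)
    {b : M ⟶ P⟦(1 : ℤ)⟧} {e : P ⟶ B⟦(1 : ℤ)⟧} {x : s.ind.obj A ⟶ B}
    (h : r' ≫ s.dn b ≫ (s.dn e)⟦(1 : ℤ)⟧' = ((s.un A ≫ s.U.F.map x)⟦(1 : ℤ)⟧')⟦(1 : ℤ)⟧') :
    ∃ r, s.flat2 r = r' ∧ r ≫ b ≫ e⟦(1 : ℤ)⟧' = (x⟦(1 : ℤ)⟧')⟦(1 : ℤ)⟧' := by
  obtain ⟨r, rfl⟩ := (s.flat2_bij A M).2 r'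
  refine ⟨r, rfl, (s.flat2_bij A _).1 ?_⟩
  rw [← cancel_mono ((s.U.F.commShiftIso (1 : ℤ)).hom.app _ ≫
    ((s.U.F.commShiftIso (1 : ℤ)).hom.app B)⟦(1 : ℤ)⟧')]
  refine Eq.trans ?_ (h.trans ?_)
  · simp [flat2_def, dn]
  · simp only [flat2_def, Category.assoc, Functor.commShiftIso_hom_naturality_assoc,
      Iso.inv_hom_id_app_assoc, ← Functor.map_comp, Functor.commShiftIso_hom_naturality]

theorem free3 (Y : T.C) : Free 3 (s.un Y) (s.γ (s.ind.obj Y)) := by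
  refine ⟨fun i => Dt.pw (s.γ' _) i ≫ s.pr Y, fun i hi j hj => ?_, ?_⟩
  · interval_cases i <;> interval_cases j <;> simp [Dt.pw]
  · simpa [Finset.sum_range_succ, Fin.sum_univ_three, Dt.pw] using s.sum_pr' Y

theorem un_pw (Y : T.C) : (L.t.h Y).hom ≫ s.un Y = s.un Y ≫ Dt.pw (s.γ (s.ind.obj Y)) 3 := by
  simp only [Dt.pw, Category.comp_id, s.γ_cube, L.t.nat]

theorem un_oe : s.un _ ≫ s.U.F.map s.oe = ε s.U.F := (s.adj.homEquiv _ _).apply_symm_apply _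

theorem rep {M : T'.C} {a : 𝟙_ T'.C ⟶ M} (h : Pre (L'.t.h s.O).hom s.oe a) :
    ∃ r, IsRep (L'.t.h s.O).hom s.oe a 3 r ∧ IsIso (s.flat2 r) := by
  obtain ⟨P, e₀, e₁, p, b, D₁, D₂, he⟩ := h
  have : IsIso (s.un (𝟙_ T.C) ≫ s.U.F.map e₀ ≫ s.U.F.map p) := by
    rw [← s.U.F.map_comp, he, un_oe]
    infer_instance
  obtain ⟨r', hr', h⟩ := exists_fund (s.free3 (𝟙_ T.C)) (by decide)
    (by rw [← s.un_pw, L.t.one, Category.id_comp]) (s.dist_dn' D₁) (s.dist_dn D₂)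
  obtain ⟨r, rfl, hr⟩ := s.lift2 r' (b := b) (e := e₁)
    (x := ∑ i ∈ Finset.range 3, Dt.pw (L'.t.h s.O).hom i)
    (by simpa only [Functor.map_sum s.U.F, Ga.map_pw] using h)
  exact ⟨r, ⟨P, e₀, e₁, p, b, D₁, D₂, he, hr⟩, hr'⟩

/-- the comparison with the restriction -/
def ju (X : Rt tK) : s.U.F.obj (L'.J.obj X) ≅ L.J.obj X.obj := s.JU.app X

@[reassoc]
theorem ju_nat {X Y : Rt tK} (m : X ⟶ Y) :
    (s.ju X).inv ≫ s.U.F.map (L'.J.map m) = L.J.map m.hom ≫ (s.ju Y).inv :=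
  (s.JU.inv.naturality m).symm

@[reassoc]
theorem ju_γ (X : Rt tK) : (s.ju X).inv ≫ s.γ (L'.J.obj X) = L.J.map X.γ ≫ (s.ju X).inv := by
  rw [γ, ← L'.J_h]
  exact s.ju_nat _

theorem γ_eq {X : Rt tK} (h : L.J.map X.γ = 𝟙 _) : s.γ (L'.J.obj X) = 𝟙 _ := by
  rw [← cancel_epi (s.ju X).inv, ju_γ, h, Category.id_comp, Category.comp_id]

theorem isIso_orb {n : ℕ} {E : T.C} {Y : T'.C} {X : Rt tK} {η : E ⟶ s.U.F.obj Y} {g : Y ⟶ Y}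
    {η' : E ⟶ L.J.obj X.obj} {m : X ⟶ X} (h : Free n η (s.U.F.map g))
    (h' : Free n η' (L.J.map m.hom)) {φ : Y ⟶ L'.J.obj X}
    (hη : η ≫ s.U.F.map φ = η' ≫ (s.ju X).inv) (hg : g ≫ φ = φ ≫ L'.J.map m) : IsIso φ := by
  have : IsIso (s.U.F.map φ) := h.isIso (h'.of_iso (𝟙 _) (s.ju X).inv (Category.id_comp _).symm
    (s.ju_nat m).symm) _ hη (by rw [← s.U.F.map_comp, hg, s.U.F.map_comp])
  exact isIso_of_reflects_iso φ s.U.F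

theorem ε_ju {X : Rt tK} (m : 𝟙_ (Rt tK) ⟶ X) : ε s.U.F ≫ s.U.F.map (ε L'.J ≫ L'.J.map m) =
    ε L.J ≫ L.J.map m.hom ≫ (s.ju X).inv := by
  have h : (ε s.U.F ≫ s.U.F.map (ε L'.J)) ≫ (s.ju (𝟙_ _)).hom = ε L.J ≫ L.J.map (𝟙 (𝟙_ K)) :=
    NatTrans.IsMonoidal.unit (τ := s.JU.hom)
  rw [L.J.map_id, Category.comp_id] at h
  rw [← s.ju_nat, ← h]
  simp

theorem oe_eq {X X' : Rt tK} {y : 𝟙_ K ⟶ X.obj} {φ : s.O ⟶ L'.J.obj X}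
    (h : s.un _ ≫ s.U.F.map φ = ε L.J ≫ L.J.map y ≫ (s.ju X).inv) (m : X ⟶ X')
    (m₀ : 𝟙_ (Rt tK) ⟶ X') (hm : y ≫ m.hom = m₀.hom) :
    s.oe ≫ ε L'.J ≫ L'.J.map m₀ = φ ≫ L'.J.map m := s.un_ext (by
  rw [s.U.F.map_comp, reassoc_of% s.un_oe, ε_ju, s.U.F.map_comp, reassoc_of% h, ju_nat, ← hm,
    L.J.map_comp, Category.assoc])

end Step

variable (v hv) in
/-- the trivial action of the subgroup -/
def w₃ : Zs 3 ⥤ Rt tK where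
  obj A := ⟨v.obj A.X, v.map A.ρ, by
    rw [hv, ← v.map_comp, ← v.map_comp, ← v.map_id, ← A.ord]
    simp only [Dt.pw, Category.comp_id]⟩
  map f := ⟨v.map f.hom, ((v.map_comp _ _).symm.trans (congrArg v.map f.comm)).trans
    (v.map_comp _ _)⟩
  map_id _ := Rt.hom_ext (v.map_id _)
  map_comp _ _ := Rt.hom_ext (v.map_comp _ _)

theorem hz3 : z3 = Circle.exp (2 * π / (3 : ℕ)) := by
  rw [z3, z9, ← Circle.exp_add, ← Circle.exp_add]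
  congr 1
  push_cast
  ring

theorem hz9 : z9 = Circle.exp (2 * π / (9 : ℕ)) := by
  rw [z9, Nat.cast_ofNat]

theorem Step.cel (huv : ∀ {A B R : FCat} {i : A ⟶ B} {q : B ⟶ R}, IsCof (𝟭 _) i q →
    IsCof u (v.map i) (v.map q)) : s.Cel := by
  have ex := L'.ex (w₃ v hv) (fun h => huv ⟨h.cofib, h.isPushout⟩) fun {A B} f _ =>
    s.isIso_J _ (h := L.isIso_v f.hom)
  refine ⟨s.rep ?_, s.γ_eq (X := Pl v hv) ?_⟩
  · let X := (w₃ v hv).obj (Zs.O 3)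
    let y : 𝟙_ K ⟶ X.obj := ε v ≫ v.map (Zs.oIn (0 : Fin 3))
    obtain ⟨φ, hφ⟩ := s.ind_lift (ε L.J ≫ L.J.map y ≫ (s.ju X).inv)
    have hg : (L'.t.h s.O).hom ≫ φ = φ ≫ L'.J.map ((Rt.tw tK).h X).hom :=
      (L'.t.nat φ).symm.trans (congrArg (φ ≫ ·) (L'.J_h X).symm)
    have := s.isIso_orb (s.free3 _) (η' := ε L.J ≫ L.J.map y) (L.free (Zs.free_O F))
      (hφ.trans (Category.assoc _ _ _).symm) hg
    let u₀ : 𝟙_ (Rt tK) ⟶ (w₃ v hv).obj (Zs.pt 3) := Rt.homMk (ε v)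
      ((Category.id_comp _).trans ((Category.comp_id _).symm.trans
        (congrArg (ε v ≫ ·) (v.map_id _).symm)))
    have : IsIso u₀.hom := inferInstanceAs (IsIso (ε v))
    have := Rt.isIso_of_hom u₀
    refine (ex.pre hz3).of_iso φ (ε L'.J ≫ L'.J.map u₀) (𝟙 _) hg
      (s.oe_eq hφ ((w₃ v hv).map (Zs.oPt 3)) u₀ ?_) ?_
    · refine (Category.assoc _ _ _).trans ((congrArg (ε v ≫ ·) ?_).trans (Category.comp_id _))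
      have h : Zs.oIn (0 : Fin 3) ≫ (Zs.oPt 3).hom = 𝟙 (𝟙_ FCat) :=
        ObjectProperty.hom_ext _ (LC.hom_ext fun _ => rfl)
      exact (v.map_comp _ _).symm.trans ((congrArg v.map h).trans (v.map_id _))
    · rw [Category.comp_id, Category.assoc]
      exact congrArg (ε L'.J ≫ ·) (L'.J.map_comp u₀ ((w₃ v hv).map (Zs.org hz3)))
  · have h : F.S.map (rotF z3) = F.S.map (𝟙 _) :=
      F.map_eq _ _ (hz3 ▸ LC.Homotopic.symm ⟨_, Gs.rotH_zero _, Gs.rotH_one _⟩)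
    change L.J.map (v.map (rotF z3)) = 𝟙 (L.J.obj (v.obj CCF))
    rw [← cancel_epi (L.jt CCF).inv, L.jt_nat, h]
    simp

end

/-- spaces with an action of the group of order nine -/
def w₉ : Zs 9 ⥤ K2 where
  obj A := ⟨⟨A.X, A.ρ ≫ A.ρ ≫ A.ρ, by
    have := A.ord
    simp only [Dt.pw, Category.comp_id] at this
    exact Eq.trans (by simp only [Category.assoc]) this⟩, ⟨A.ρ, by simp⟩, rfl⟩
  map f := ⟨⟨f.hom, by simp only [Category.assoc, f.comm, reassoc_of% f.comm]⟩, Rt.hom_ext f.comm⟩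

namespace Tower

variable (W : Tower)

theorem cel1 : W.s₁.Cel := W.s₁.cel fun h => h

theorem cel2 : W.s₂.Cel := W.s₂.cel fun h => h

theorem un9 : W.s₁.γ W.s₁.O ≫ W.s₁.U.F.map (W.s₂.un W.s₁.O) =
    W.s₁.U.F.map (W.s₂.un W.s₁.O) ≫ Dt.pw (W.s₁.U.F.map (W.s₂.γ W.G)) 3 := by
  rw [← map_pw, ← W.s₁.U.F.map_comp, ← W.s₁.U.F.map_comp, W.s₂.un_pw]

theorem free9 : Free 9 (W.s₁.un (𝟙_ W.T₀.C) ≫ W.s₁.U.F.map (W.s₂.un W.s₁.O))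
    (W.s₁.U.F.map (W.s₂.γ W.G)) :=
  (W.s₁.free3 _).comp ((W.s₂.free3 W.s₁.O).map W.s₁.U.F) W.un9

theorem pre9 : Pre (W.L₂.t.h W.G).hom (W.gq ≫ W.s₂.oe) W.a := by
  have ex := W.L₂.ex w₉ (fun h => ⟨h.cofib, h.isPushout⟩) fun {A B} f hf => by
    have := W.s₁.isIso_J (w₉.map f).hom (h := hf)
    exact W.s₂.isIso_J _
  let X := w₉.obj (Zs.O 9)
  let y : 𝟙_ FCat ⟶ X.obj.obj := Zs.oIn (0 : Fin 9)
  obtain ⟨φ₁, hφ₁⟩ := W.s₁.ind_lift (ε (lvl0 W.c).J ≫ (lvl0 W.c).J.map y ≫ (W.s₁.ju X.obj).inv)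
  obtain ⟨φ, hφ⟩ := W.s₂.ind_lift (φ₁ ≫ (W.s₂.ju X).inv)
  have : IsIso (W.s₂.U.F.map φ ≫ (W.s₂.ju X).hom) := W.s₁.isIso_orb W.free9 (m := X.γ)
    (η' := ε (lvl0 W.c).J ≫ (lvl0 W.c).J.map y)
    (by
      exact (Zs.free_O (n := 9) W.F).of_iso (η' := ε W.F.S ≫ W.F.S.map (Zs.oIn 0)) (ε W.F.S) (𝟙 _)
        (by simp) ((Category.comp_id _).trans (Category.id_comp _).symm))
    (by rw [Category.assoc, ← W.s₁.U.F.map_comp, reassoc_of% hφ, Iso.inv_hom_id, Category.comp_id,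
      hφ₁, Category.assoc])
    (by rw [← W.s₂.γ_nat_assoc, Category.assoc, ← cancel_epi (W.s₂.ju X).inv |>.1 (show
      (W.s₂.ju X).inv ≫ (W.s₂.ju X).hom ≫ W.L₁.J.map X.γ = (W.s₂.ju X).inv ≫ W.s₂.γ _ ≫
        (W.s₂.ju X).hom by simp [W.s₂.ju_γ_assoc])])
  have : IsIso (W.s₂.U.F.map φ) := IsIso.of_isIso_comp_right _ (W.s₂.ju X).hom
  have := isIso_of_reflects_iso φ W.s₂.U.F
  let u₀ : 𝟙_ K2 ≅ w₉.obj (Zs.pt 9) := Rt.isoMk (Rt.isoMk (Iso.refl _) (by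
    change 𝟙 _ ≫ 𝟙 _ = 𝟙 _ ≫ 𝟙 _ ≫ 𝟙 _ ≫ 𝟙 (𝟙_ FCat); simp)) rfl
  let l : w₉.obj (Zs.Pl hz9) ≅ Pl9 := Rt.isoMk (Rt.isoMk (Iso.refl _) (by
    change (rotF z9 ≫ rotF z9 ≫ rotF z9) ≫ 𝟙 _ = 𝟙 _ ≫ rotF z3
    rw [Category.comp_id, Category.id_comp, rotF_mul, rotF_mul, mul_comm, z3])) (Rt.hom_ext (by
    change rotF z9 ≫ 𝟙 _ = 𝟙 _ ≫ rotF z9; simp))
  refine (ex.pre hz9).of_iso φ (ε W.L₂.J ≫ W.L₂.J.map u₀.hom) (W.L₂.J.map l.hom) ?_ ?_ ?_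
  · exact (W.L₂.t.nat φ).symm.trans (congrArg (φ ≫ ·) (W.L₂.J_h X).symm)
  · refine W.s₂.un_ext ?_
    have h := W.s₁.oe_eq hφ₁ (w₉.map (Zs.oPt 9)).hom u₀.hom.hom
      (ObjectProperty.hom_ext _ (LC.hom_ext fun _ => rfl))
    rw [W.s₂.U.F.map_comp, W.s₂.U.F.map_comp, W.s₂.U.F.map_comp φ, reassoc_of% hφ, gq,
      Category.assoc, W.s₂.un_nat_assoc, reassoc_of% W.s₂.un_oe, W.s₂.ε_ju, reassoc_of% h]
    exact congrArg (φ₁ ≫ ·) (W.s₂.ju_nat _).symm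
  · rw [Category.assoc]
    refine congrArg (ε W.L₂.J ≫ ·) (Eq.trans (congrArg W.L₂.J.map ?_) ((W.L₂.J.map_comp u₀.hom
      (w₉.map (Zs.org hz9) ≫ l.hom)).trans (congrArg (_ ≫ ·) (W.L₂.J.map_comp _ _))))
    exact Rt.hom_ext (Rt.hom_ext (ObjectProperty.hom_ext _ (LC.hom_ext fun _ => rfl)))

theorem cel9 : W.Cel9 := by
  refine ⟨?_, ?_, ?_⟩
  · obtain ⟨P, e₀, e₁, p, b, D₁, D₂, he⟩ := W.pre9
    have : IsIso ((W.s₁.un (𝟙_ W.T₀.C) ≫ W.s₁.U.F.map (W.s₂.un W.s₁.O)) ≫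
        W.s₁.U.F.map (W.s₂.U.F.map e₀) ≫ W.s₁.U.F.map (W.s₂.U.F.map p)) := by
      rw [Category.assoc, ← W.s₁.U.F.map_comp, ← W.s₂.U.F.map_comp, he, ← W.s₁.U.F.map_comp,
        W.s₂.U.F.map_comp, gq, W.s₂.un_nat_assoc, W.s₂.un_oe, W.s₁.U.F.map_comp,
        reassoc_of% W.s₁.un_oe]
      infer_instance
    obtain ⟨r'', hr, h⟩ := exists_fund W.free9 (by decide) (by
        rw [show 9 = 3 + (3 + 3) from rfl, pw_add, pw_add, Category.assoc, ← reassoc_of% W.un9,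
          ← reassoc_of% W.un9, ← W.un9, W.s₁.γ_cube_assoc]
        exact congrArg _ (Category.id_comp _))
      (W.s₁.dist_dn' (W.s₂.dist_dn' D₁)) (W.s₁.dist_dn (W.s₂.dist_dn D₂))
    obtain ⟨r', rfl, h'⟩ := W.s₁.lift2 r'' (x := W.s₂.un _ ≫ W.s₂.U.F.map
      (∑ i ∈ Finset.range 9, Dt.pw (W.L₂.t.h W.G).hom i)) (by
        simpa only [Functor.map_comp, Functor.map_sum, map_pw, Category.assoc] using h)
    obtain ⟨r, hr', h''⟩ := W.s₂.lift2 r' h'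
    exact ⟨r, ⟨P, e₀, e₁, p, b, D₁, D₂, he, h''⟩, r', hr', hr⟩
  · have h : W.L₁.J.map (𝟙 Pl9.obj) = W.L₁.J.map Pl9.γ := W.J_homotopy₁ _ _ (Gs.rotH _)
      (Gs.rotH_comm _ z3) (Gs.rotH_zero _) (Gs.rotH_one _)
    exact W.s₂.γ_eq (X := Pl9) (h.symm.trans (W.L₁.J.map_id _))
  · have h := congrArg (η W.s₂.U.F ≫ · ≫ (W.s₂.ju Pl9).hom) (W.s₂.ε_ju org9)
    simp only [Category.assoc, Functor.Monoidal.η_ε_assoc, Iso.inv_hom_id, Category.comp_id] at h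
    exact h

end Tower

end Vale.Agent.P236Z.Cat
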