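import Vale.Agent.P236Z.Top.Geo
import Vale.Agent.P251.Q.Exact
import Vale.Agent.P251.M.PiZero
import Vale.Agent.P251.G.CofibEx
import Mathlib.RingTheory.RootsOfUnity.Complex

/-!
# P236: the circle as a mapping torus and the plane as a mapping cone
-/

open CategoryTheory MonoidalCategory Limits OnePoint Set Filter Real
open Vale.Agent.P251 Vale.Agent.P251.G Vale.Agent.P251.G.LC Vale.Agent.P251.I Vale.Agent.P251.M

noncomputable section

namespace Vale.Agent.P236Z.Cat.Gs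

theorem isPushout_of_fun {A B C D : LC} {i : A ⟶ B} {f : A ⟶ C} {g : B ⟶ D} {j : C ⟶ D}
    (w : i ≫ g = f ≫ j) (i' : A → B) (g' : B → D) (j' : C → D)
    (hi : ∀ a : A, app i a = i' a) (hg : ∀ b : B, app g b = g' b) (hj : ∀ c : C, app j c = j' c)
    (hinj : Function.Injective j') (hb : BijOn g' (range i')ᶜ (range j')ᶜ) :
    IsPushout i f g j := by
  have key : ∀ {X Y : LC} (m : X ⟶ Y) (m' : X → Y), (∀ x : X, app m x = m' x) →
      (range (app m))ᶜ = OnePoint.some '' (range m')ᶜ := by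
    intro X Y m m' hm
    ext y
    induction y using OnePoint.rec with
    | infty => simpa using ⟨∞, app_infty m⟩
    | coe y =>
      rw [OnePoint.coe_injective.mem_set_image, mem_compl_iff, mem_compl_iff, not_iff_not]
      refine ⟨fun ⟨x, hx⟩ => ?_, fun ⟨x, hx⟩ => ⟨x, hx ▸ hm x⟩⟩
      induction x using OnePoint.rec with
      | infty => exact absurd ((app_infty m).symm.trans hx) (OnePoint.infty_ne_coe _)
      | coe x => exact ⟨x, OnePoint.coe_injective ((hm x).symm.trans hx)⟩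
  refine isPushout_of w (fun x y h => ?_) ?_
  · induction x using OnePoint.rec <;> induction y using OnePoint.rec
    · rfl
    · exact absurd ((app_infty j).symm.trans (h.trans (hj _))) (OnePoint.infty_ne_coe _)
    · exact absurd ((app_infty j).symm.trans (h.symm.trans (hj _))) (OnePoint.infty_ne_coe _)
    · exact congrArg _ (hinj (OnePoint.coe_injective ((hj _).symm.trans (h.trans (hj _)))))
  · rw [key i i' hi, key j j' hj]
    refine ⟨?_, ?_, ?_⟩
    · rintro _ ⟨b, hb', rfl⟩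
      exact ⟨_, hb.mapsTo hb', (hg b).symm⟩
    · rintro _ ⟨b, hb', rfl⟩ _ ⟨c, hc', rfl⟩ h
      exact congrArg _ (hb.injOn hb' hc'
        (OnePoint.coe_injective ((hg _).symm.trans (h.trans (hg _)))))
    · rintro _ ⟨d, hd, rfl⟩
      obtain ⟨b, hb', rfl⟩ := hb.surjOn hd
      exact ⟨_, ⟨b, hb', rfl⟩, hg b⟩

/-- the map of a compact space to the point -/
def toPt (X : LC) [CompactSpace X] : X ⟶ 𝟙_ LC :=
  ofCompact (Y := LC.of Unit) (fun _ => ()) continuous_const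

/-- the two end points -/
abbrev DD : LC := finProd (𝟙_ LC) 2

/-- the two end points of the interval -/
def ends (p : Fin 2 × Unit) : unitInterval := if p.1 = 0 then 0 else 1

theorem ends_emb : Topology.IsClosedEmbedding ends :=
  continuous_of_discreteTopology.isClosedEmbedding (by
    rintro ⟨a, ⟨⟩⟩ ⟨b, ⟨⟩⟩ h
    fin_cases a <;> fin_cases b <;> simp_all [ends])

theorem range_ends : range ends = {y | y = 0 ∨ y = 1} := by
  ext y
  refine ⟨?_, ?_⟩
  · rintro ⟨p, rfl⟩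
    by_cases h : p.1 = 0 <;> simp [ends, h]
  · rintro (rfl | rfl)
    exacts [⟨(0, ()), rfl⟩, ⟨(1, ()), rfl⟩]

/-- the inclusion of the end points -/
def jE : DD ⟶ II := ofClosed (X := DD) (Y := II) ends ends_emb

theorem cofib_jE : Cofib jE :=
  cofib_ofClosed (C := DD) (D := II) _ _ (range_ends ▸ pndr_boundary_II)

theorem cof_DD : Q.CofSeq (finIncl (𝟙_ LC) 2 0) (finColl (𝟙_ LC) 2 1) := by
  refine Q.CofSeq.of_closed_open (Y := DD) _ _ _ _ ?_ (cofib_of_clopen (B := DD) _ _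
    (isOpenEmbedding_finMk (𝟙_ LC) (0 : Fin 2)).isOpen_range)
  rw [← eq_compl_iff_isCompl]
  ext ⟨a, ⟨⟩⟩
  fin_cases a <;> simp

theorem hequiv_II (X : LC) : IsHEquiv (X ◁ toPt II) := by
  refine ⟨X ◁ point (X := II) 0, ?_, ?_⟩
  · rw [← MonoidalCategory.whiskerLeft_comp, ← MonoidalCategory.whiskerLeft_id]
    refine Homotopic.whiskerLeft X ⟨ofCompact (X := LC.of (unitInterval × unitInterval)) (Y := II)
      (fun p => p.1 * p.2) (continuous_fst.mul continuous_snd), ?_, ?_⟩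
    · exact hom_ext fun x => congrArg OnePoint.some (mul_zero x)
    · exact hom_ext fun x => congrArg OnePoint.some (mul_one x)
  · exact Homotopic.of_eq (hom_ext fun _ => rfl)

/-- the circle -/
abbrev CI : LC := LC.of Circle

/-- the rotation of the circle -/
def rc (z : Circle) : CI ⟶ CI := ofCompact (X := CI) (Y := CI) (z * ·) (continuous_const_mul z)

/-- polar coordinates -/
def polar : CI ⊗ HH ⟶ LC.of ℂ :=
  ofProper (X := LC.of (Circle × NNReal)) (Y := LC.of ℂ) (fun p => (p.1 : ℂ) * ((p.2 : ℝ) : ℂ))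
    (by fun_prop) (tendsto_cocompact_of_preimage fun K hK => by
      obtain ⟨M, hM⟩ := hK.isBounded.exists_norm_le
      refine ⟨univ ×ˢ Icc 0 M.toNNReal, isCompact_univ.prod isCompact_Icc, fun p hp => ?_⟩
      refine ⟨trivial, zero_le, NNReal.coe_le_coe.1 (le_trans ?_ (Real.le_coe_toNNReal M))⟩
      simpa [Circle.norm_coe] using hM _ hp)

theorem isPushout_polar : IsPushout (coneBase CI) (toPt CI) polar (point (X := LC.of ℂ) 0) := by
  refine isPushout_of_fun (hom_ext fun x => congrArg OnePoint.some (mul_zero (x : ℂ)))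
    (fun x => (x, (0 : NNReal))) (fun p : Circle × NNReal => (p.1 : ℂ) * ((p.2 : ℝ) : ℂ))
    (fun _ => (0 : ℂ)) (fun _ => rfl) (fun _ => rfl) (fun _ => rfl)
    (fun _ _ _ => rfl) ?_
  have h0 : ∀ p : Circle × NNReal, p ∈ (range fun x : Circle => (x, (0 : NNReal)))ᶜ ↔ p.2 ≠ 0 :=
    fun p => not_congr ⟨fun ⟨_, h⟩ => h ▸ rfl, fun h => ⟨p.1, Prod.ext rfl h.symm⟩⟩
  refine ⟨fun p hp ⟨_, h⟩ => (h0 p).1 hp (by simpa using h), fun p hp q _ h => ?_, fun x hx => ?_⟩
  · have h1 : p.2 = q.2 := by simpa [Circle.norm_coe] using congrArg norm h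
    have h2 : (((q.2 : ℝ)) : ℂ) ≠ 0 := by simpa [← h1] using (h0 p).1 hp
    refine Prod.ext (Circle.ext (mul_right_cancel₀ h2 ?_)) h1
    simpa only [h1] using h
  · refine ⟨(Circle.exp (Complex.arg x), ‖x‖₊), (h0 _).2 fun h => hx ⟨(), ?_⟩, ?_⟩
    · exact (nnnorm_eq_zero.1 h).symm
    · exact (mul_comm _ _).trans (Complex.norm_mul_exp_arg_mul_I x)

/-- the path of rotations from the identity to `exp θ` -/
def rotH (θ : ℝ) : LC.of ℂ ⊗ II ⟶ LC.of ℂ :=
  ofProper (X := LC.of (ℂ × unitInterval)) (Y := LC.of ℂ)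
    (fun p => (Circle.exp (p.2 * θ) : ℂ) * p.1) (by fun_prop)
    (tendsto_cocompact_of_norm ℂ fun x t => by rw [norm_mul, Circle.norm_coe]; simp)

theorem rotH_zero (θ : ℝ) : incl 0 _ ≫ rotH θ = 𝟙 _ :=
  hom_ext fun x => congrArg OnePoint.some
    (show (Circle.exp ((0 : ℝ) * θ) : ℂ) * x = x by simp)

theorem rotH_one (θ : ℝ) : incl 1 _ ≫ rotH θ = (rotF (Circle.exp θ)).hom :=
  hom_ext fun x => congrArg OnePoint.some
    (show (Circle.exp ((1 : ℝ) * θ) : ℂ) * x = Circle.exp θ * x by simp)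

theorem rotH_comm (θ : ℝ) (z : Circle) : (rotF z).hom ▷ II ≫ rotH θ = rotH θ ≫ (rotF z).hom :=
  hom_ext fun _ => congrArg OnePoint.some (mul_left_comm _ _ _)

variable (n : ℕ) [NeZero n]

/-- the orbit -/
abbrev OO : LC := LC.of (Fin n)

/-- the shift of the orbit -/
def sh (k : Fin n) : OO n ⟶ OO n :=
  ofCompact (X := OO n) (Y := OO n) (· + k) continuous_of_discreteTopology

/-- the gluing of the end points -/
def glu : OO n ⊗ DD ⟶ OO n ⊗ 𝟙_ LC :=
  ofCompact (X := LC.of (Fin n × Fin 2 × Unit)) (Y := LC.of (Fin n × Unit))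
    (fun p => (if p.2.1 = 0 then p.1 else p.1 + 1, ())) continuous_of_discreteTopology

variable {n} {z : Circle} (hz : z = Circle.exp (2 * π / n))

/-- the inclusion of the orbit -/
def orb (n : ℕ) (z : Circle) : OO n ⊗ 𝟙_ LC ⟶ CI :=
  ofCompact (X := LC.of (Fin n × Unit)) (Y := CI) (fun p => z ^ (p.1 : ℕ))
    continuous_of_discreteTopology

/-- the arcs -/
def arc (n : ℕ) (z : Circle) : OO n ⊗ II ⟶ CI :=
  ofCompact (X := LC.of (Fin n × unitInterval)) (Y := CI)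
    (fun p => z ^ (p.1 : ℕ) * Circle.exp (2 * π / n * p.2))
    (((continuous_of_discreteTopology (f := fun k : Fin n => z ^ (k : ℕ))).comp
      continuous_fst).mul (by fun_prop))

omit hz in
theorem exp_pow (t : ℝ) : Circle.exp (2 * π / n * t) ^ n = Circle.exp (2 * π * t) := by
  have : (n : ℝ) ≠ 0 := NeZero.ne _
  rw [← Circle.exp_natCast_mul]
  congr 1
  field_simp

include hz

theorem z_pow : z ^ n = 1 := by simpa [hz] using exp_pow (n := n) 1

theorem z_succ (k : Fin n) : z ^ ((k + 1 : Fin n) : ℕ) = z * z ^ (k : ℕ) := by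
  rw [Fin.val_add, ← pow_eq_pow_mod _ (z_pow hz), pow_add, Fin.val_one',
    ← pow_eq_pow_mod _ (z_pow hz), pow_one, mul_comm]

theorem z_prim : IsPrimitiveRoot (z : ℂ) n := by
  have h := Complex.isPrimitiveRoot_exp n (NeZero.ne n)
  rwa [show (z : ℂ) = Complex.exp (2 * π * Complex.I / n) by
    rw [hz, Circle.coe_exp]; congr 1; push_cast; ring]

theorem isPushout_arc : IsPushout (OO n ◁ jE) (glu n) (arc n z) (orb n z) := by
  have hinj : ∀ k l : Fin n, z ^ (k : ℕ) = z ^ (l : ℕ) → k = l := fun k l h =>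
    Fin.ext ((z_prim hz).pow_inj k.2 l.2 (congrArg ((↑) : Circle → ℂ) h))
  have hp : ∀ (k : Fin n) (t : ℝ), (z ^ (k : ℕ) * Circle.exp (2 * π / n * t)) ^ n =
      Circle.exp (2 * π * t) := fun k t => by
    rw [mul_pow, exp_pow, pow_right_comm, z_pow hz, one_pow, one_mul]
  have hI : ∀ s ∈ Ico (0 : ℝ) 1, ∀ t ∈ Ico (0 : ℝ) 1,
      Circle.exp (2 * π * s) = Circle.exp (2 * π * t) → s = t := fun s hs t ht h =>
    mul_left_cancel₀ two_pi_pos.ne' (Circle.exp_injOn_Ico (a := 0) (b := 2 * π) (by simp)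
      ⟨mul_nonneg two_pi_pos.le hs.1, mul_lt_of_lt_one_right two_pi_pos hs.2⟩
      ⟨mul_nonneg two_pi_pos.le ht.1, mul_lt_of_lt_one_right two_pi_pos ht.2⟩ h)
  refine isPushout_of_fun ?_ (fun p : Fin n × Fin 2 × Unit => (p.1, ends p.2))
    (fun p : Fin n × unitInterval => z ^ (p.1 : ℕ) * Circle.exp (2 * π / n * p.2))
    (fun p : Fin n × Unit => z ^ (p.1 : ℕ)) (fun _ => rfl) (fun _ => rfl) (fun _ => rfl)
    (fun p q h => Prod.ext (hinj _ _ h) rfl) ?_
  · refine hom_ext fun p => congrArg OnePoint.some ?_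
    change z ^ (p.1 : ℕ) * Circle.exp (2 * π / n * (ends p.2 : ℝ)) =
      z ^ ((if p.2.1 = 0 then p.1 else p.1 + 1 : Fin n) : ℕ)
    by_cases h : p.2.1 = 0
    · simp [ends, h]
    · simp only [ends, h, if_false, z_succ hz, Icc.coe_one, mul_one, ← hz]
      exact mul_comm _ _
  have h0 : ∀ p : Fin n × unitInterval, p ∈ (range fun p : Fin n × Fin 2 × Unit =>
      (p.1, ends p.2))ᶜ ↔ (p.2 : ℝ) ≠ 0 ∧ (p.2 : ℝ) ≠ 1 := fun p => by
    rw [ne_eq, ne_eq, ← not_or, Icc.coe_eq_zero, Icc.coe_eq_one]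
    refine not_congr ⟨fun ⟨q, h⟩ => range_ends.le ⟨q.2, congrArg Prod.snd h⟩, fun h => ?_⟩
    obtain ⟨q, hq⟩ := range_ends.ge h
    exact ⟨(p.1, q), Prod.ext rfl hq⟩
  have h1 : ∀ p : Fin n × unitInterval, (p.2 : ℝ) ≠ 1 → (p.2 : ℝ) ∈ Ico (0 : ℝ) 1 :=
    fun p h => ⟨p.2.2.1, p.2.2.2.lt_of_ne h⟩
  refine ⟨fun p hp' ⟨q, h⟩ => ?_, fun p hp' q hq h => ?_, fun x hx => ?_⟩
  · refine ((h0 p).1 hp').1 (hI _ (h1 p ((h0 p).1 hp').2) 0 (by simp) ?_)
    rw [← hp p.1, ← hp q.1 0]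
    simpa using congrArg (· ^ n) h.symm
  · have h2 : p.2 = q.2 := Subtype.ext (hI _ (h1 p ((h0 p).1 hp').2) _ (h1 q ((h0 q).1 hq).2) (by
      rw [← hp p.1, ← hp q.1]; exact congrArg (· ^ n) h))
    exact Prod.ext (hinj _ _ (mul_right_cancel (h.trans (by rw [h2])))) h2
  · obtain ⟨θ, hθ⟩ := Circle.exp_surjective (x ^ n)
    have ht : Circle.exp (2 * π * Int.fract (θ / (2 * π))) = x ^ n := by
      rw [← hθ, Circle.exp_eq_exp]
      refine ⟨-⌊θ / (2 * π)⌋, ?_⟩
      rw [Int.fract, mul_sub, mul_div_cancel₀ _ two_pi_pos.ne']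
      push_cast; ring
    set t := Int.fract (θ / (2 * π))
    obtain ⟨k, hk, h⟩ := (z_prim hz).eq_pow_of_pow_eq_one
      (ξ := ((x / Circle.exp (2 * π / n * t) : Circle) : ℂ)) (by
        rw [← Circle.coe_pow, div_pow, exp_pow, ht, div_self', Circle.coe_one])
    have h2 : z ^ k * Circle.exp (2 * π / n * t) = x := by
      rw [show z ^ k = x / Circle.exp (2 * π / n * t) from Circle.ext h, div_mul_cancel]
    refine ⟨(⟨k, hk⟩, ⟨t, Int.fract_nonneg _, (Int.fract_lt_one _).le⟩),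
      (h0 _).2 ⟨fun h3 => hx ⟨(⟨k, hk⟩, ()), ?_⟩, (Int.fract_lt_one _).ne⟩, h2⟩
    have h4 : t = 0 := h3
    simpa [h4] using h2

omit hz [NeZero n] in
theorem fcOO : FC (OO n) := (fc_finProd FC.unit n).of_iso (ρ_ (OO n))

theorem fcCI : FC CI :=
  FC.pushout (fcOO.tensor (fc_finProd FC.unit 2)) (fcOO.tensor (FC.hequiv FC.unit
    ((HEquiv.of_iso (λ_ _)).symm.trans ((hequiv_II (𝟙_ LC)).hequiv.symm.trans
      (HEquiv.of_iso (λ_ _)))))) (fcOO.tensor FC.unit) (cofib_jE.whiskerLeft _) (isPushout_arc hz)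

end Vale.Agent.P236Z.Cat.Gs
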