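import Vale.Agent.P236Z.Top.GeoSp
import Vale.Agent.P236Z.Top.GeoAlg

/-!
# P236: spaces with an action of a cyclic group and the cells of the rotation sphere
-/

open CategoryTheory MonoidalCategory Limits Pretriangulated Real
open Vale.Agent.P251 Vale.Agent.P251.G Vale.Agent.P251.G.LC Vale.Agent.P251.I Vale.Agent.P251.M
open Vale.Agent.P251.H Vale.Agent.P251.T

noncomputable section

namespace Vale.Agent.P236Z.Cat

open Gs Ga

/-- finite cell spaces with an automorphism of order `n` -/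
structure Zs (n : ℕ) where
  /-- the space -/
  X : FCat
  /-- the automorphism -/
  ρ : X ⟶ X
  ord : Dt.pw ρ n = 𝟙 X

namespace Zs

variable {n : ℕ}

/-- equivariant maps -/
@[ext] structure Hom (A B : Zs n) where
  /-- the map -/
  hom : A.X ⟶ B.X
  comm : A.ρ ≫ hom = hom ≫ B.ρ

instance : Category (Zs n) where
  Hom := Hom
  id A := ⟨𝟙 _, by simp⟩
  comp f g := ⟨f.hom ≫ g.hom, by rw [reassoc_of% f.comm, g.comm, Category.assoc]⟩

theorem hom_ext {A B : Zs n} {f g : A ⟶ B} (h : f.hom.hom = g.hom.hom) : f = g :=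
  Hom.ext (ObjectProperty.hom_ext _ h)

/-- an equivariant map -/
def mk' {A B : Zs n} (f : A.X.obj ⟶ B.X.obj) (h : A.ρ.hom ≫ f = f ≫ B.ρ.hom) : A ⟶ B :=
  ⟨FCat.hom f, ObjectProperty.hom_ext _ h⟩

theorem comm' {A B : Zs n} (f : A ⟶ B) : A.ρ.hom ≫ f.hom.hom = f.hom.hom ≫ B.ρ.hom :=
  congrArg (·.hom) f.comm

/-- the action -/
def act (A : Zs n) : A ⟶ A := ⟨A.ρ, rfl⟩

/-- the zero map -/
def zr (A B : Zs n) : A ⟶ B := mk' 0 (comp_zero.trans zero_comp.symm)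

/-- cofibre sequences -/
abbrev Cof {A B R : Zs n} (i : A ⟶ B) (q : B ⟶ R) : Prop := Q.CofSeq i.hom.hom q.hom.hom

/-- the product with a space with trivial action -/
def tens (A : Zs n) : FCat ⥤ Zs n where
  obj Y := ⟨A.X ⊗ Y, A.ρ ▷ Y, (map_pw (tensorRight Y) A.ρ n).symm.trans
    ((congrArg (· ▷ Y) A.ord).trans (id_whiskerRight _ _))⟩
  map f := ⟨A.X ◁ f, (whisker_exchange A.ρ f).symm⟩
  map_id _ := Hom.ext (MonoidalCategory.whiskerLeft_id _ _)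
  map_comp f g := Hom.ext (MonoidalCategory.whiskerLeft_comp _ f g)

theorem pw_eq {X : FCat} {ρ : X ⟶ X} (r : ℕ → (X.obj ⟶ X.obj)) (h0 : r 0 = 𝟙 _)
    (h : ∀ m, ρ.hom ≫ r m = r (m + 1)) (m : ℕ) : Dt.pw ρ m = FCat.hom (r m) := by
  induction m with
  | zero => exact ObjectProperty.hom_ext _ h0.symm
  | succ m ih => rw [Dt.pw, ih]; exact ObjectProperty.hom_ext _ (h m)

/-- the point -/
def pt (n : ℕ) : Zs n := ⟨𝟙_ FCat, 𝟙 _, pw_eq (fun _ => 𝟙 _) rfl (fun _ => Category.id_comp _) n⟩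

variable [NeZero n]

theorem ofNat_succ (m : ℕ) : Fin.ofNat n (m + 1) = Fin.ofNat n m + 1 :=
  Fin.ext (by simp [Fin.val_add])

theorem sh_zero : sh n 0 = 𝟙 _ := LC.hom_ext fun x => congrArg OnePoint.some (add_zero x)

theorem sh_sh (k l : Fin n) : sh n k ≫ sh n l = sh n (l + k) :=
  LC.hom_ext fun x => congrArg OnePoint.some ((add_assoc x k l).trans (congrArg _ (add_comm k l)))

/-- the orbit -/
def O₀ (n : ℕ) [NeZero n] : Zs n := ⟨⟨OO n, fcOO⟩, FCat.hom (sh n 1),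
  (pw_eq (X := ⟨OO n, fcOO⟩) (ρ := FCat.hom (sh n 1)) (fun m => sh n (Fin.ofNat n m)) sh_zero
    (fun m => (sh_sh _ _).trans (congrArg _ (ofNat_succ m).symm)) n).trans
    (ObjectProperty.hom_ext _ ((congrArg (sh n) Fin.ofNat_self).trans sh_zero))⟩

/-- the orbit -/
abbrev O (n : ℕ) [NeZero n] : Zs n := (O₀ n).tens.obj (𝟙_ FCat)

/-- the projection of the orbit -/
def oPt (n : ℕ) [NeZero n] : O n ⟶ pt n :=
  mk' (toPt (LC.of (Fin n × Unit))) (LC.hom_ext fun _ => rfl)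

/-- the points of the orbit -/
def oIn (k : Fin n) : 𝟙_ FCat ⟶ (O n).X := fIncl (𝟙_ FCat) n k

/-- the collapse maps of the orbit -/
def oCo (k : Fin n) : (O n).X ⟶ 𝟙_ FCat := fColl (𝟙_ FCat) n k

theorem free_O {T : Type 1} [Category.{0} T] [Preadditive T] [HasZeroObject T] [HasShift T ℤ]
    [∀ n : ℤ, (shiftFunctor T n).Additive] [Pretriangulated T] [MonoidalCategory T]
    [SymmetricCategory T] [TensorTriangulated T] (F : SpaceFunctor T) :
    Free n (F.S.map (oIn (0 : Fin n))) (F.S.map (O n).ρ) := by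
  have key : ∀ i, F.S.map (oIn (0 : Fin n)) ≫ Dt.pw (F.S.map (O n).ρ) i =
      F.S.map (oIn (Fin.ofNat n i)) := fun i => by
    induction i with
    | zero => exact Category.comp_id _
    | succ i ih =>
      rw [Dt.pw_succ', reassoc_of% ih, ofNat_succ]
      exact S_comp_eq F _ _ _ (LC.hom_ext fun _ => rfl)
  refine ⟨fun i => F.S.map (oCo (Fin.ofNat n i)), fun i hi j hj => ?_, ?_⟩
  · rw [reassoc_of% key]
    split_ifs with h
    · exact h ▸ S_comp_eq_id F _ _ (finIncl_finColl _ _ _)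
    · refine S_comp_eq_zero F _ _ (finIncl_finColl_ne _ _ fun h' => h ?_)
      simpa [Nat.mod_eq_of_lt hi, Nat.mod_eq_of_lt hj] using congrArg Fin.val h'
  · simp only [key]
    rw [Finset.sum_range]
    simp only [Fin.ofNat_val_eq_self]
    exact sum_finProd F (𝟙_ FCat) n

omit [NeZero n] in
theorem rc_one : rc 1 = 𝟙 _ := LC.hom_ext fun x => congrArg OnePoint.some (one_mul x)

omit [NeZero n] in
theorem rc_rc (z w : Circle) : rc z ≫ rc w = rc (w * z) :=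
  LC.hom_ext fun x => congrArg OnePoint.some (mul_assoc w z x).symm

variable {z : Circle} (hz : z = Circle.exp (2 * π / n))

/-- the circle -/
def Cir : Zs n := ⟨⟨CI, fcCI hz⟩, FCat.hom (rc z),
  (pw_eq (X := ⟨CI, fcCI hz⟩) (ρ := FCat.hom (rc z)) (fun m => rc (z ^ m))
    ((congrArg rc (pow_zero z)).trans rc_one)
    (fun m => (rc_rc _ _).trans (congrArg _ (pow_succ z m).symm)) n).trans
    (ObjectProperty.hom_ext _ ((congrArg rc (z_pow hz)).trans rc_one))⟩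

/-- the plane -/
def Pl : Zs n := ⟨CCF, rotF z,
  (pw_eq (fun m => (rotF (z ^ m)).hom) (by rw [pow_zero, rotF_one]; rfl)
    (fun m => by rw [pow_succ, ← rotF_mul]; rfl) n).trans
    (show rotF (z ^ n) = _ by rw [z_pow hz, rotF_one])⟩

/-- the origin -/
def org : pt n ⟶ Pl hz := ⟨orgF, (Category.id_comp _).trans (orgF_rotF z).symm⟩

variable {C : Type 1} [Category.{0} C] [Preadditive C] [HasZeroObject C] [HasShift C ℤ]
  [∀ n : ℤ, (shiftFunctor C n).Additive] [Pretriangulated C]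

/-- exact and homotopy invariant functors -/
structure Ex (J : Zs n ⥤ C) : Prop where
  tri : ∀ {A B R : Zs n} {i : A ⟶ B} {q : B ⟶ R}, Cof i q → ∃ d, Dist (J.map i) (J.map q) d ∧
    ∀ {A' B' : Zs n} {i' : A' ⟶ B'} {q' : B' ⟶ R} (a : A ⟶ A') (b : B ⟶ B'), Cof i' q' →
      i ≫ b = a ≫ i' → q = b ≫ q' → Dist (J.map i') (J.map q') (d ≫ (J.map a)⟦(1 : ℤ)⟧')
  iso : ∀ {A B : Zs n} (f : A ⟶ B), IsHEquiv f.hom.hom → IsIso (J.map f)

variable {J : Zs n ⥤ C} (h : Ex J)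
include h

omit [NeZero n] in
theorem Ex.push {A B R A' B' : Zs n} {i : A ⟶ B} {q : B ⟶ R} (hc : Cof i q) {a : A ⟶ A'}
    {b : B ⟶ B'} {i' : A' ⟶ B'} (hp : IsPushout i.hom.hom a.hom.hom b.hom.hom i'.hom.hom) :
    ∃ d, Dist (J.map i) (J.map q) d ∧
      ∃ q', Dist (J.map i') q' (d ≫ (J.map a)⟦(1 : ℤ)⟧') := by
  obtain ⟨d, D, hd⟩ := h.tri hc
  have w : i.hom.hom ≫ q.hom.hom = a.hom.hom ≫ 0 := hc.w.trans comp_zero.symm
  let q' : B' ⟶ R := mk' (hp.desc q.hom.hom 0 w) (hp.hom_ext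
    (by rw [← reassoc_of% comm' b, hp.inl_desc, hp.inl_desc_assoc, comm' q])
    (by rw [← reassoc_of% comm' i', hp.inr_desc, hp.inr_desc_assoc, comp_zero, zero_comp]))
  refine ⟨d, D, _, hd (q' := q') a b ⟨hc.cofib.pushout hp, ?_⟩ (hom_ext hp.w)
    (hom_ext (hp.inl_desc _ _ _).symm)⟩
  refine (IsPushout.of_left (h₁₁ := a.hom.hom) (v₁₁ := i.hom.hom) (h₂₁ := b.hom.hom) ?_
    (zero_comp.trans (hp.inr_desc _ _ w).symm) hp.flip).flip
  rw [comp_zero, hp.inl_desc]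
  exact hc.isPushout.flip

omit [NeZero n] in
theorem Ex.zero (A B : Zs n) : J.map (zr A B) = 0 := by
  have hc : Cof (A.tens.map (fIncl (𝟙_ FCat) 2 0)) (A.tens.map (fColl (𝟙_ FCat) 2 1)) :=
    cof_DD.whiskerLeft _
  obtain ⟨d, D, -⟩ := h.tri hc
  rw [show zr A B = zr _ _ ≫ A.tens.map (fIncl (𝟙_ FCat) 2 0) ≫ A.tens.map (fColl (𝟙_ FCat) 2 1) ≫
    zr _ _ from hom_ext zero_comp.symm, J.map_comp, J.map_comp, J.map_comp, reassoc_of% D.zero₁₂,
    zero_comp, comp_zero]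

omit h in
/-- the inclusion of the orbit in the circle -/
def inc : O n ⟶ Cir hz := mk' (orb n z) (LC.hom_ext fun p =>
  congrArg OnePoint.some (z_succ hz p.1))

omit h in
/-- the projection of the circle -/
def cPt : Cir hz ⟶ pt n := mk' (toPt CI) (LC.hom_ext fun _ => rfl)

omit h in
/-- the interval -/
abbrev II' : FCat := ⟨II, FC.hequiv FC.unit ((HEquiv.of_iso (λ_ _)).symm.trans
  ((hequiv_II (𝟙_ LC)).hequiv.symm.trans (HEquiv.of_iso (λ_ _))))⟩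

omit h in
/-- the end points -/
def jF : fProd (𝟙_ FCat) 2 ⟶ II' := FCat.hom jE

omit h in
/-- the quotient -/
def qF : II' ⟶ FCat.mk (FC.cof cofib_jE (fProd (𝟙_ FCat) 2).2 II'.2) := FCat.hom (cofMap jE)

omit h in
theorem glu_comm : sh n 1 ▷ DD ≫ glu n = glu n ≫ sh n 1 ▷ 𝟙_ LC := by
  refine LC.hom_ext fun p => congrArg OnePoint.some ?_
  change ((if p.2.1 = 0 then p.1 + 1 else p.1 + 1 + 1 : Fin n), ()) =
    ((if p.2.1 = 0 then p.1 else p.1 + 1 : Fin n) + 1, ())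
  split_ifs <;> rfl

omit h in
/-- the gluing of the end points -/
def fo (n : ℕ) [NeZero n] : (O₀ n).tens.obj (fProd (𝟙_ FCat) 2) ⟶ O n := mk' (glu n) glu_comm

omit h in
/-- the arcs -/
def ar : (O₀ n).tens.obj II' ⟶ Cir hz := mk' (arc n z) (LC.hom_ext fun p =>
  congrArg OnePoint.some ((congrArg (· * _) (z_succ hz p.1)).trans (mul_assoc _ _ _)))

omit [NeZero n] in
theorem Ex.seg (A : Zs n) {R : C} {q : J.obj (A.tens.obj II') ⟶ R}
    {d : R ⟶ (J.obj (A.tens.obj (fProd (𝟙_ FCat) 2)))⟦(1 : ℤ)⟧} (D : Dist (J.map (A.tens.map jF)) q d) :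
    ∃ τ : (J.obj (A.tens.obj (𝟙_ FCat)))⟦(1 : ℤ)⟧ ⟶ R, IsIso τ ∧ τ ≫ d =
      (J.map (A.tens.map (fIncl (𝟙_ FCat) 2 1)) -
        J.map (A.tens.map (fIncl (𝟙_ FCat) 2 0)))⟦(1 : ℤ)⟧' := by
  let c : II' ⟶ 𝟙_ FCat := FCat.hom (toPt II)
  have hG : ∀ {X Y Z : FCat} (a : X ⟶ Y) (b : Y ⟶ Z) (k : X ⟶ Z), a.hom ≫ b.hom = k.hom →
      J.map (A.tens.map a) ≫ J.map (A.tens.map b) = J.map (A.tens.map k) := fun a b k w => by
    rw [← J.map_comp, ← A.tens.map_comp, show a ≫ b = k from ObjectProperty.hom_ext _ w]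
  have h1 : ∀ X : FCat, J.map (A.tens.map (𝟙 X)) = 𝟙 _ := fun X => by
    rw [A.tens.map_id, J.map_id]
  have h10 : ∀ a b : Fin 2, a ≠ b → J.map (A.tens.map (fIncl (𝟙_ FCat) 2 a)) ≫
      J.map (A.tens.map (fColl (𝟙_ FCat) 2 b)) = 0 :=
    fun a b w => by
      rw [hG _ _ (FCat.hom 0) (finIncl_finColl_ne _ _ w), ← h.zero]
      exact congrArg J.map (hom_ext (LC.hom_ext fun _ => rfl))
  have h11 : ∀ a : Fin 2, J.map (A.tens.map (fIncl (𝟙_ FCat) 2 a)) ≫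
      J.map (A.tens.map (fColl (𝟙_ FCat) 2 a)) = 𝟙 _ :=
    fun a => (hG _ _ (𝟙 _) (finIncl_finColl _ _ _)).trans (h1 _)
  have hc : ∀ a : Fin 2, J.map (A.tens.map (fIncl (𝟙_ FCat) 2 a)) ≫ J.map (A.tens.map jF) ≫
      J.map (A.tens.map c) = 𝟙 _ := fun a => by
    rw [hG jF c _ rfl]
    exact (hG _ _ (𝟙 _) (LC.hom_ext fun _ => rfl)).trans (h1 _)
  have : IsIso (J.map (A.tens.map c)) := h.iso _ (hequiv_II _)
  obtain ⟨d', D', -⟩ := h.tri (i := A.tens.map (fIncl (𝟙_ FCat) 2 0))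
    (q := A.tens.map (fColl (𝟙_ FCat) 2 1)) (cof_DD.whiskerLeft _)
  exact Ga.seg D (J.map (A.tens.map c)) (split_id D' _ _ (h11 0) (h11 1) (h10 1 0 (by decide)))
    (hc 0) (hc 1) (h10 0 1 (by decide)) (h11 1)

theorem Ex.tri₁ : ∃ e₁, Dist (𝟙 _ - J.map (O n).act) (J.map (inc hz)) e₁ := by
  obtain ⟨d, D, q', D₁⟩ := h.push (i := (O₀ n).tens.map jF) (q := (O₀ n).tens.map qF)
    ((Q.CofSeq.std cofib_jE).whiskerLeft _) (a := fo n) (b := ar hz) (i' := inc hz)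
    (isPushout_arc hz)
  obtain ⟨τ, _, hτ⟩ := h.seg _ D
  refine ⟨q' ≫ inv τ, unrot (D₁.of_iso₃ τ (by simp) ?_)⟩
  rw [reassoc_of% hτ, ← Functor.map_comp, ← Functor.map_neg, neg_sub, Preadditive.sub_comp,
    ← J.map_comp, ← J.map_comp, ← J.map_id,
    show (O₀ n).tens.map (fIncl (𝟙_ FCat) 2 0) ≫ fo n = 𝟙 _ from hom_ext (LC.hom_ext fun _ => rfl),
    show (O₀ n).tens.map (fIncl (𝟙_ FCat) 2 1) ≫ fo n = (O n).act from
      hom_ext (LC.hom_ext fun _ => rfl)]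

theorem Ex.tri₂ : ∃ b, Dist (J.map (cPt hz)) (J.map (org hz)) b := by
  let HH' : FCat := ⟨HH, FC.halfLine⟩
  let i₂ : Cir hz ⟶ (Cir hz).tens.obj HH' := mk' (coneBase CI) (coneBase_naturality _).symm
  let k : HH' ⟶ RRF := FCat.hom collHH
  let b : (Cir hz).tens.obj HH' ⟶ Pl hz := mk' polar (LC.hom_ext fun x =>
    congrArg OnePoint.some (mul_assoc (z : ℂ) _ _))
  obtain ⟨d₂, D₂, q₂, D₃⟩ := h.push (i := i₂) (q := (Cir hz).tens.map k) (Q.CofSeq.base CI)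
    (a := cPt hz) (b := b) (i' := org hz) isPushout_polar
  have hz0 : IsZero (J.obj ((Cir hz).tens.obj HH')) := by
    have := h.iso (zr ((Cir hz).tens.obj HH') ((Cir hz).tens.obj HH')) ⟨0,
      (Homotopic.of_eq comp_zero).trans (contr_tensor_HH CI).symm,
      (Homotopic.of_eq zero_comp).trans (contr_tensor_HH CI).symm⟩
    rw [h.zero] at this
    exact IsZero.of_mono_zero _ (J.obj ((Cir hz).tens.obj HH'))
  have : IsIso d₂ := (Triangle.isZero₂_iff_isIso₃ _ D₂).1 hz0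
  have : IsIso (-inv d₂) := ⟨-d₂, by simp, by simp⟩
  exact ⟨-(q₂ ≫ d₂), unrot (D₃.of_iso₃ (-inv d₂) (by simp) (by simp))⟩

theorem Ex.pre : Pre (J.map (O n).act) (J.map (oPt n)) (J.map (org hz)) := by
  obtain ⟨e₁, D₁⟩ := h.tri₁ hz
  obtain ⟨b, D₂⟩ := h.tri₂ hz
  exact ⟨_, _, e₁, _, b, D₁, D₂,
    (J.map_comp _ _).symm.trans (congrArg J.map (hom_ext (LC.hom_ext fun _ => rfl)))⟩

end Zs

end Vale.Agent.P236Z.Cat
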